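import Vale.Agent.P359.Moment.Sys

/-!
First consequences of the axioms of a moment system: the pair ladder and its sum form.
-/

open Finset

namespace Vale.Agent.P359.Moment

variable {E : Type*} [NormedAddCommGroup E] [InnerProductSpace ℂ E]

theorem bh_eq (eps : ℝ) (u : ℕ → Module.End ℂ E) (k : ℕ) :
    bh eps u k = ∑ i ∈ range (k + 2), ((Coef.desc 1 1 eps 1 k i : ℝ) : ℂ) • (u (k + 1 - i) * u i) := by
  show ∑ i ∈ range (1 + k + 1), _ = _
  rw [show 1 + k + 1 = k + 2 by omega]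
  exact sum_congr rfl fun i _ => by rw [Nat.add_comm 1 k]; rfl

theorem rhoOf_one (eps : ℝ) : Coef.rhoOf 1 1 eps 1 = Coef.rhoJ eps := by
  simp [Coef.rhoOf, Coef.rhoJ]
  ring

variable {eps : ℝ} {ι : Type*} [Fintype ι] (S : Sys eps E ι)

theorem Sys.u_E (a : ℕ) : S.u a * S.Ep - S.Ep * S.u a = S.u (a + 1) := S.ladder.raise a

theorem Sys.bh_ladder : Ladder.IsLadder (Ladder.brk (𝕜 := ℂ) S.Ep) (Ladder.brk (𝕜 := ℂ) S.Fm)
    (Coef.rhoJ eps) eps (bh eps S.u) := by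
  rw [← rhoOf_one]
  exact Ladder.comp_ladder (Ladder.brk_mul _) (Ladder.brk_mul _) S.ladder S.ladder 1

theorem Sys.bh_E (k : ℕ) :
    bh eps S.u k * S.Ep - S.Ep * bh eps S.u k = bh eps S.u (k + 1) := S.bh_ladder.raise k

theorem Sys.u_F (a : ℕ) :
    S.u a * S.Fm - S.Fm * S.u a = ((Coef.eCo 1 eps a : ℝ) : ℂ) • S.u (a - 1) := by
  rcases a with _ | a
  · simpa [Coef.eCo, Ladder.brk_apply] using S.ladder.lower_zero
  · simpa [Ladder.brk_apply] using S.ladder.lower a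

/-- Invariance, in bracket form. -/
theorem Sys.inv_sub (X Y : Module.End ℂ E) :
    pform S.χ X (Y * S.Ep - S.Ep * Y) = pform S.χ (X * S.Fm - S.Fm * X) Y := S.inv X Y

theorem Sys.bh_raise (k : ℕ) :
    bh eps S.u k * S.Ep - S.Ep * bh eps S.u k = bh eps S.u (k + 1) := S.bh_ladder.raise k

theorem Sys.u_raise (a : ℕ) : S.u a * S.Ep - S.Ep * S.u a = S.u (a + 1) := S.ladder.raise a

theorem Sys.bh_F (k : ℕ) : bh eps S.u k * S.Fm - S.Fm * bh eps S.u k =
    ((Coef.eCo (Coef.rhoJ eps) eps k : ℝ) : ℂ) • bh eps S.u (k - 1) := by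
  rcases k with _ | k
  · simpa [Coef.eCo, Ladder.brk_apply] using S.bh_ladder.lower_zero
  · simpa [Ladder.brk_apply] using S.bh_ladder.lower k

end Vale.Agent.P359.Moment
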