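import Vale.Agent.P359.Moment.Lin
import Vale.Agent.P359.Moment.SysFacts

/-!
The algebra of the trace form and of the evaluation of linear forms and combinations.
-/

open Finset RCLike
open scoped InnerProductSpace

namespace Vale.Agent.P359.Moment

variable {E : Type*} [NormedAddCommGroup E] [InnerProductSpace ℂ E]

section pform

variable {ι : Type*} [Fintype ι] (χ : ι → E) (X Y Z : Module.End ℂ E)

lemma pform_def : pform χ X Y = ∑ i, (⟪X (χ i), Y (χ i)⟫_ℂ).re := by
  rw [pform, Slack.pform, re_to_complex, Complex.re_sum]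

lemma pform_comm : pform χ X Y = pform χ Y X := by
  simp only [pform_def]
  exact Finset.sum_congr rfl fun k _ => by rw [← inner_conj_symm, Complex.conj_re]

lemma pform_self : pform χ X X = ∑ i, ‖X (χ i)‖ ^ 2 := by
  rw [pform_def]
  exact Finset.sum_congr rfl fun k _ => inner_self_eq_norm_sq (𝕜 := ℂ) _

lemma pform_self_nonneg : 0 ≤ pform χ X X := by rw [pform_self]; positivity

@[simp] lemma pform_zero_right : pform χ X 0 = 0 := by simp [pform, Slack.pform]

@[simp] lemma pform_zero_left : pform χ 0 Y = 0 := by simp [pform, Slack.pform]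

lemma pform_add_right : pform χ X (Y + Z) = pform χ X Y + pform χ X Z := by
  simp [pform_def, inner_add_right, Finset.sum_add_distrib]

lemma pform_add_left : pform χ (X + Y) Z = pform χ X Z + pform χ Y Z := by
  simp [pform_def, inner_add_left, Finset.sum_add_distrib]

lemma pform_neg_right : pform χ X (-Y) = -pform χ X Y := by simp [pform, Slack.pform]

lemma pform_neg_left : pform χ (-X) Y = -pform χ X Y := by simp [pform, Slack.pform]

lemma pform_sub_right : pform χ X (Y - Z) = pform χ X Y - pform χ X Z := by
  rw [sub_eq_add_neg, pform_add_right, pform_neg_right, sub_eq_add_neg]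

lemma pform_sub_left : pform χ (X - Y) Z = pform χ X Z - pform χ Y Z := by
  rw [sub_eq_add_neg, pform_add_left, pform_neg_left, sub_eq_add_neg]

lemma pform_smul_right (c : ℝ) : pform χ X ((c : ℂ) • Y) = c * pform χ X Y := by
  simp [pform_def, inner_smul_right, Finset.mul_sum]

lemma pform_smul_left (c : ℝ) : pform χ ((c : ℂ) • X) Y = c * pform χ X Y := by
  simp [pform_def, inner_smul_left, Finset.mul_sum]

lemma pform_sum_right {α : Type*} (s : Finset α) (f : α → Module.End ℂ E) :
    pform χ X (∑ a ∈ s, f a) = ∑ a ∈ s, pform χ X (f a) := by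
  induction s using Finset.cons_induction with
  | empty => simp
  | cons a s ha ih => rw [Finset.sum_cons, Finset.sum_cons, pform_add_right, ih]

lemma pform_sum_left {α : Type*} (s : Finset α) (f : α → Module.End ℂ E) :
    pform χ (∑ a ∈ s, f a) Y = ∑ a ∈ s, pform χ (f a) Y := by
  rw [pform_comm, pform_sum_right]
  exact Finset.sum_congr rfl fun a _ => pform_comm χ Y (f a)

lemma pform_list_sum_right (l : List (Module.End ℂ E)) :
    pform χ X l.sum = (l.map (pform χ X)).sum := by
  induction l with
  | nil => simp
  | cons a l ih => simp [pform_add_right, ih]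

lemma pform_list_sum_left (l : List (Module.End ℂ E)) :
    pform χ l.sum Y = (l.map fun T => pform χ T Y).sum := by
  induction l with
  | nil => simp
  | cons a l ih => simp [pform_add_left, ih]

/-- The adjoint moves to the other side. -/
lemma pform_adj {u v : Module.End ℂ E} (h : ∀ x y, ⟪v x, y⟫_ℂ = ⟪x, u y⟫_ℂ) :
    pform χ X (v * Y) = pform χ (u * X) Y := by
  simp only [pform_def, Module.End.mul_apply]
  exact Finset.sum_congr rfl fun k _ => by rw [← inner_conj_symm, h, inner_conj_symm]

/-- The adjoint moves to the other side. -/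
lemma pform_adj' {u v : Module.End ℂ E} (h : ∀ x y, ⟪v x, y⟫_ℂ = ⟪x, u y⟫_ℂ) :
    pform χ (v * X) Y = pform χ X (u * Y) := by
  rw [pform_comm, pform_adj χ Y X h, pform_comm]

end pform

section collect

variable {R : Type*} [CommRing R] {α M : Type*} [DecidableEq α] [AddCommMonoid M]

lemma sum_accum (g : R × α → M) (hg : ∀ a b x, g (a + b, x) = g (a, x) + g (b, x)) (p : R × α)
    (l : List (R × α)) : ((accum p l).map g).sum = g p + (l.map g).sum := by
  induction l with
  | nil => simp [accum]
  | cons q l ih =>
    obtain ⟨a, x⟩ := p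
    obtain ⟨b, y⟩ := q
    rw [accum]
    split_ifs with h
    · have h' : y = x := h
      subst h'
      simp [hg, add_assoc]
    · simp [ih, add_left_comm]

lemma sum_collect (g : R × α → M) (hg : ∀ a b x, g (a + b, x) = g (a, x) + g (b, x))
    (l : List (R × α)) : ((collect l).map g).sum = (l.map g).sum := by
  unfold collect
  induction l with
  | nil => simp
  | cons p l ih => rw [List.foldr_cons, sum_accum g hg, ih, List.map_cons, List.sum_cons]

end collect

variable {eps : ℝ} {ι : Type*} [Fintype ι] (S : Sys eps E ι)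

lemma Sys.val_comm (s t : St) : S.val (s, t) = S.val (t, s) := pform_comm _ _ _

lemma Sys.val_self_nonneg (s : St) : 0 ≤ S.val (s, s) := pform_self_nonneg _ _

@[simp] lemma Sys.ev_nil : S.ev [] = 0 := by simp [Sys.ev]

lemma Sys.ev_cons (p : ℝ × (St × St)) (L : Lin ℝ) :
    S.ev (p :: L) = p.1 * S.val p.2 + S.ev L := by
  simp [Sys.ev]

lemma Sys.ev_singleton (c : ℝ) (s t : St) : S.ev [(c, (s, t))] = c * S.val (s, t) := by
  simp [Sys.ev]

lemma Sys.ev_append (L L' : Lin ℝ) : S.ev (L ++ L') = S.ev L + S.ev L' := by
  simp [Sys.ev, List.sum_append]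

lemma Sys.ev_scale (c : ℝ) (L : Lin ℝ) : S.ev (scale c L) = c * S.ev L := by
  induction L with
  | nil => simp [scale, Sys.ev]
  | cons p L ih =>
    rw [show scale c (p :: L) = (c * p.1, p.2) :: scale c L from rfl, S.ev_cons, S.ev_cons, ih]
    ring

lemma Sys.ev_flatMap {α : Type*} (l : List α) (f : α → Lin ℝ) :
    S.ev (l.flatMap f) = (l.map fun a => S.ev (f a)).sum := by
  induction l with
  | nil => simp
  | cons a l ih => rw [List.flatMap_cons, S.ev_append, ih, List.map_cons, List.sum_cons]

lemma Sys.ev_collect (L : Lin ℝ) : S.ev (collect L) = S.ev L :=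
  sum_collect _ (fun _ _ _ => add_mul _ _ _) L

@[simp] lemma Sys.comb_nil : S.comb [] = 0 := by simp [Sys.comb]

lemma Sys.comb_cons (p : ℝ × St) (A : Comb ℝ) :
    S.comb (p :: A) = (p.1 : ℂ) • S.op p.2 + S.comb A := by
  simp [Sys.comb]

lemma Sys.comb_singleton (c : ℝ) (s : St) : S.comb [(c, s)] = (c : ℂ) • S.op s := by
  simp [Sys.comb]

lemma Sys.comb_append (A B : Comb ℝ) : S.comb (A ++ B) = S.comb A + S.comb B := by
  simp [Sys.comb, List.sum_append]

lemma Sys.comb_scale (c : ℝ) (A : Comb ℝ) : S.comb (scale c A) = (c : ℂ) • S.comb A := by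
  induction A with
  | nil => simp [scale, Sys.comb]
  | cons p A ih =>
    rw [show scale c (p :: A) = (c * p.1, p.2) :: scale c A from rfl, S.comb_cons, S.comb_cons, ih,
      smul_add, smul_smul, Complex.ofReal_mul]

lemma Sys.comb_flatMap {α : Type*} (l : List α) (f : α → Comb ℝ) :
    S.comb (l.flatMap f) = (l.map fun a => S.comb (f a)).sum := by
  induction l with
  | nil => simp
  | cons a l ih => rw [List.flatMap_cons, S.comb_append, ih, List.map_cons, List.sum_cons]

lemma Sys.comb_map {α : Type*} (l : List α) (c : α → ℝ) (s : α → St) :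
    S.comb (l.map fun a => (c a, s a)) = (l.map fun a => (c a : ℂ) • S.op (s a)).sum := by
  simp [Sys.comb, List.map_map, Function.comp_def]

lemma Sys.comb_collect (A : Comb ℝ) : S.comb (collect A) = S.comb A :=
  sum_collect _ (fun a b _ => by rw [Complex.ofReal_add, add_smul]) A

/-- The moments of a monomial and a combination. -/
lemma Sys.ev_cross_single (p : ℝ × St) (B : Comb ℝ) :
    S.ev (B.map fun q => (p.1 * q.1, (p.2, q.2))) =
      p.1 * pform S.χ (S.op p.2) (S.comb B) := by
  induction B with
  | nil => simp
  | cons q B ih =>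
    rw [List.map_cons, S.ev_cons, ih, S.comb_cons, pform_add_right, pform_smul_right, Sys.val]
    ring

/-- The moments of two combinations are the form of their operators. -/
lemma Sys.ev_cross (A B : Comb ℝ) : S.ev (cross A B) = pform S.χ (S.comb A) (S.comb B) := by
  induction A with
  | nil => simp [cross]
  | cons p A ih =>
    rw [show cross (p :: A) B = B.map (fun q => (p.1 * q.1, (p.2, q.2))) ++ cross A B from rfl,
      S.ev_append, ih, S.comb_cons, pform_add_left, pform_smul_left, S.ev_cross_single]

end Vale.Agent.P359.Moment
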