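import Vale.Agent.P359.Moment.Basic
import Vale.Agent.P359.Moment.SysFacts

/-!
The operators of the word programs: sorting a word costs its sign, a window monomial is the
combination `winComb`, and two pairs are the combination `pairsComb`.
-/

open Finset

namespace Vale.Agent.P359.Moment

variable {E : Type*} [NormedAddCommGroup E] [InnerProductSpace ℂ E]
variable {eps : ℝ} {ι : Type*} [Fintype ι] (S : Sys eps E ι)

lemma Sys.u_sq (a : ℕ) : S.u a * S.u a = 0 := by
  have h := eq_neg_iff_add_eq_zero.1 (S.anti a a)
  rw [← two_smul ℂ, smul_eq_zero] at h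
  exact h.resolve_left two_ne_zero

lemma sgn_not_smul (b : Bool) (X : Module.End ℂ E) :
    ((sgn (!b) : ℝ) : ℂ) • X = -(((sgn b : ℝ) : ℂ) • X) := by
  cases b <;> simp [sgn]

lemma sgn_xor (a b : Bool) : (sgn (a ^^ b) : ℝ) = sgn a * sgn b := by
  cases a <;> cases b <;> simp [sgn]

/-- Inserting one particle. -/
lemma Sys.ins_spec (a : ℕ) (l : List ℕ) : S.u a * (l.map S.u).prod =
    match ins a l with
    | none => 0
    | some p => ((sgn p.1 : ℝ) : ℂ) • (p.2.map S.u).prod := by
  induction l with
  | nil => simp [ins, sgn]
  | cons b l ih =>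
    rw [ins]
    split_ifs with h1 h2
    · simp [sgn]
    · subst h2
      simp [← mul_assoc, S.u_sq]
    · rw [List.map_cons, List.prod_cons, ← mul_assoc, S.anti a b, neg_mul, mul_assoc,
        ih]
      rcases ins a l with _ | p
      · simp
      · simp only [Option.map_some, List.map_cons, List.prod_cons]
        rw [mul_smul_comm, sgn_not_smul]

/-- Sorting a word costs its sign. -/
lemma Sys.canon_spec (l : List ℕ) : (l.map S.u).prod =
    match canon l with
    | none => 0
    | some p => ((sgn p.1 : ℝ) : ℂ) • (p.2.map S.u).prod := by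
  induction l with
  | nil => simp [canon, sgn]
  | cons a l ih =>
    rw [List.map_cons, List.prod_cons, ih, canon]
    rcases canon l with _ | p
    · simp
    · simp only [Option.bind_some]
      rw [mul_smul_comm, S.ins_spec a p.2]
      rcases ins a p.2 with _ | q
      · simp
      · simp only [Option.map_some]
        rw [smul_smul, ← Complex.ofReal_mul, sgn_xor]

/-- A sorted multiple of a word is the multiple of the word. -/
theorem Sys.comb_wordComb (c : ℝ) (l : List ℕ) :
    S.comb (wordComb c l) = (c : ℂ) • (l.map S.u).prod := by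
  rw [wordComb, S.canon_spec l]
  rcases canon l with _ | p
  · simp
  · simp only [S.comb_singleton, Sys.op]
    rw [smul_smul, Complex.ofReal_mul]

lemma sum_range_map {M : Type*} [AddCommMonoid M] (f : ℕ → M) (m : ℕ) :
    ((List.range m).map f).sum = ∑ i ∈ Finset.range m, f i := by
  induction m with
  | zero => simp
  | succ m ih =>
    rw [List.range_succ, List.map_append, List.sum_append, ih, Finset.sum_range_succ]
    simp

/-- A window monomial as increasing words. -/
theorem Sys.comb_winComb (k a b : ℕ) : S.comb (winComb eps k a b) = S.op (.win k a b) := by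
  rw [winComb, S.comb_flatMap, sum_range_map]
  show _ = S.u a * S.u b * Moment.bh eps S.u k
  rw [bh_eq, Finset.mul_sum]
  refine Finset.sum_congr rfl fun i _ => ?_
  rw [S.comb_wordComb, mul_smul_comm]
  simp [mul_assoc]

/-- Two pairs as increasing words. -/
theorem Sys.comb_pairsComb (k l : ℕ) :
    S.comb (pairsComb eps k l) = Moment.bh eps S.u k * Moment.bh eps S.u l := by
  rw [pairsComb, S.comb_flatMap, sum_range_map, bh_eq, bh_eq, Finset.sum_mul]
  refine Finset.sum_congr rfl fun i _ => ?_
  rw [S.comb_flatMap, sum_range_map, Finset.mul_sum]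
  refine Finset.sum_congr rfl fun j _ => ?_
  rw [S.comb_wordComb, smul_mul_assoc, mul_smul_comm, smul_smul, Complex.ofReal_mul]
  simp [mul_assoc]

/-- Two pairs commute. -/
theorem Sys.pairs_comm (k l : ℕ) :
    Moment.bh eps S.u k * Moment.bh eps S.u l = Moment.bh eps S.u l * Moment.bh eps S.u k := by
  have step : ∀ p q r, S.u p * S.u q * S.u r = S.u r * (S.u p * S.u q) := by
    intro p q r
    rw [mul_assoc, S.anti q r, mul_neg, ← mul_assoc, S.anti p r, neg_mul, neg_neg, mul_assoc]
  have key : ∀ a b c d, S.u a * S.u b * (S.u c * S.u d) = S.u c * S.u d * (S.u a * S.u b) := by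
    intro a b c d
    rw [← mul_assoc, step, mul_assoc, step, ← mul_assoc]
  simp only [bh_eq, Finset.sum_mul]
  simp only [Finset.mul_sum, smul_mul_assoc, mul_smul_comm, smul_smul]
  rw [Finset.sum_comm]
  refine Finset.sum_congr rfl fun i _ => Finset.sum_congr rfl fun j _ => ?_
  rw [mul_comm, key]

/-- The program `z2` is the highest weight of component `n` of two pairs. -/
theorem Sys.comb_z2 (n : ℕ) :
    S.comb (z2 eps n) = Slack.ww eps (Moment.bh eps S.u) n 0 := by
  rw [z2, S.comb_collect, S.comb_flatMap, sum_range_map, Slack.ww, Ladder.comp]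
  simp only [Ladder.desc_zero, Nat.add_zero]
  exact Finset.sum_congr rfl fun i _ => by
    rw [S.comb_scale, S.comb_pairsComb, S.pairs_comm]
    rfl

/-- The moments of two window monomials through increasing words. -/
theorem Sys.val_win (k a b k' a' b' : ℕ) :
    S.val (.win k a b, .win k' a' b') =
      S.ev (cross (winComb eps k a b) (winComb eps k' a' b')) := by
  rw [S.ev_cross, S.comb_winComb, S.comb_winComb]
  rfl

/-- The moment of a window monomial and any monomial. -/
theorem Sys.val_win_left (k a b : ℕ) (t : St) :
    S.val (.win k a b, t) = S.ev (cross (winComb eps k a b) [(1, t)]) := by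
  rw [S.ev_cross, S.comb_winComb, S.comb_singleton, Complex.ofReal_one, one_smul]
  rfl

end Vale.Agent.P359.Moment
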