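import Vale.Agent.P359.Moment.Natural
import Vale.Agent.P359.Moment.Words
import Vale.Agent.P359.CertCheck

/-!
A linear form whose monomial pairs stay inside finitely many disjoint blocks is nonnegative when
each block matrix is positive semidefinite.
-/

open Finset RCLike Filter
open scoped InnerProductSpace Topology

namespace Vale.Agent.P359.Moment

variable {E : Type*} [NormedAddCommGroup E] [InnerProductSpace ℂ E] {eps : ℝ} {ι : Type*}
  [Fintype ι] (S : Sys eps E ι)

theorem coeffAt_cons {R : Type*} [CommRing R] (p : R × (St × St)) (L : Lin R) (s t : St) :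
    coeffAt (p :: L) s t = (if p.2 = (s, t) then p.1 else 0) + coeffAt L s t := by
  by_cases h : p.2 = (s, t) <;> simp [coeffAt, h]

theorem sum_ite_get {α : Type*} [DecidableEq α] (b : List α) (hb : b.Nodup) (s : α) :
    (∑ i : Fin b.length, if b.get i = s then (1 : ℝ) else 0) = if s ∈ b then 1 else 0 := by
  split_ifs with h
  · obtain ⟨i, hi⟩ := List.get_of_mem h
    rw [Finset.sum_eq_single i]
    · simp only [hi, if_true]
    · intro j _ hj
      rw [if_neg fun e => hj (hb.injective_get (e.trans hi.symm))]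
    · simp
  · refine Finset.sum_eq_zero fun i _ => ?_
    rw [if_neg]
    intro e
    subst e
    exact h (List.get_mem b i)

/-- The value of a form, block by block. -/
theorem Sys.ev_eq_blocks (L : Lin ℝ) (Bs : List (List St)) (hnd : Bs.flatten.Nodup)
    (hcov : ∀ p ∈ L, ∃ b ∈ Bs, p.2.1 ∈ b ∧ p.2.2 ∈ b) :
    S.ev L = (Bs.map fun b => ∑ i : Fin b.length, ∑ j : Fin b.length,
      coeffAt L (b.get i) (b.get j) * S.val (b.get i, b.get j)).sum := by
  induction L with
  | nil => simp [coeffAt]
  | cons p L ih =>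
    obtain ⟨c, s, t⟩ := p
    obtain ⟨b₀, hb₀, hs, ht⟩ := hcov (c, (s, t)) (List.mem_cons_self ..)
    rw [S.ev_cons, ih fun q hq => hcov q (List.mem_cons_of_mem _ hq)]
    simp only [coeffAt_cons, add_mul, Finset.sum_add_distrib, List.sum_map_add]
    congr 1
    obtain ⟨hn, hdj⟩ := List.nodup_flatten.1 hnd
    have hterm : ∀ b ∈ Bs, (∑ i : Fin b.length, ∑ j : Fin b.length,
        (if (s, t) = (b.get i, b.get j) then c else 0) * S.val (b.get i, b.get j)) =
        if s ∈ b ∧ t ∈ b then c * S.val (s, t) else 0 := by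
      intro b hb
      have e : ∀ i j : Fin b.length,
          (if (s, t) = (b.get i, b.get j) then c else 0) * S.val (b.get i, b.get j) =
          (if b.get i = s then (1 : ℝ) else 0) * (if b.get j = t then 1 else 0) *
            (c * S.val (s, t)) := by
        intro i j
        by_cases hi : b.get i = s
        · by_cases hj : b.get j = t
          · rw [if_pos (by rw [hi, hj]), if_pos hi, if_pos hj, hi, hj]; ring
          · rw [if_neg fun e => hj (Prod.mk.inj e).2.symm, if_neg hj]; ring
        · rw [if_neg fun e => hi (Prod.mk.inj e).1.symm, if_neg hi]; ring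
      simp only [e, ← Finset.sum_mul, ← Finset.mul_sum, sum_ite_get b (hn b hb)]
      by_cases h1 : s ∈ b <;> by_cases h2 : t ∈ b <;> simp [h1, h2]
    rw [List.map_congr_left hterm]
    clear ih hcov hterm
    induction Bs with
    | nil => simp at hb₀
    | cons b Bs ih' =>
      rw [List.map_cons, List.sum_cons]
      obtain ⟨hd1, hd2⟩ := List.pairwise_cons.1 hdj
      rcases List.mem_cons.1 hb₀ with rfl | hb'
      · rw [if_pos ⟨hs, ht⟩, List.sum_eq_zero, add_zero]
        intro x hx
        obtain ⟨b', hb', rfl⟩ := List.mem_map.1 hx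
        rw [if_neg fun h => List.disjoint_left.1 (hd1 b' hb') hs h.1]
      · rw [if_neg fun h => List.disjoint_left.1 (hd1 b₀ hb') h.1 hs, zero_add]
        refine ih' ?_ hb' (fun l hl => hn l (List.mem_cons_of_mem _ hl)) hd2
        rw [List.flatten_cons] at hnd
        exact hnd.of_append_right

/-- A block with a nonnegative form has a nonnegative value. -/
theorem Sys.block_nonneg (L : Lin ℝ) (b : List St)
    (h : ∀ φ : Fin b.length → E,
      0 ≤ Psd.form (𝕜 := ℂ) (fun i j => coeffAt L (b.get i) (b.get j)) φ) :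
    0 ≤ ∑ i : Fin b.length, ∑ j : Fin b.length,
      coeffAt L (b.get i) (b.get j) * S.val (b.get i, b.get j) := by
  have e : ∀ i j : Fin b.length, S.val (b.get i, b.get j) =
      ∑ k, re ⟪S.op (b.get i) (S.χ k), S.op (b.get j) (S.χ k)⟫_ℂ := fun i j => by
    rw [Sys.val, pform_def]; rfl
  simp only [e, Finset.mul_sum]
  rw [Finset.sum_congr rfl fun i _ => Finset.sum_comm, Finset.sum_comm]
  exact Finset.sum_nonneg fun k _ => h fun i => S.op (b.get i) (S.χ k)

/-- Nonnegative blocks give a nonnegative form. -/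
theorem Sys.ev_nonneg_of_blocks (L : Lin ℝ) (Bs : List (List St)) (hnd : Bs.flatten.Nodup)
    (hcov : ∀ p ∈ L, ∃ b ∈ Bs, p.2.1 ∈ b ∧ p.2.2 ∈ b)
    (h : ∀ b ∈ Bs, ∀ φ : Fin b.length → E,
      0 ≤ Psd.form (𝕜 := ℂ) (fun i j => coeffAt L (b.get i) (b.get j)) φ) : 0 ≤ S.ev L := by
  rw [S.ev_eq_blocks L Bs hnd hcov]
  refine List.sum_nonneg fun x hx => ?_
  obtain ⟨b, hb, rfl⟩ := List.mem_map.1 hx
  exact S.block_nonneg L b (h b hb)

/-- Replace the windows up to weight `D₀` by increasing words. -/
def subComb {R : Type*} [CommRing R] (D₀ : ℕ) (e : R) : St → Comb R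
  | .win k a b => if k + a + b + 1 ≤ D₀ then winComb e k a b else [(1, .win k a b)]
  | .bh k => [(1, .bh k)]
  | .one k a => [(1, .one k a)]
  | .word l => [(1, .word l)]

/-- Substitute the windows in a linear form. -/
def substLin {R : Type*} [CommRing R] (D₀ : ℕ) (e : R) (L : Lin R) : Lin R :=
  L.flatMap fun p => scale p.1 (cross (subComb D₀ e p.2.1) (subComb D₀ e p.2.2))

theorem Sys.comb_subComb (D₀ : ℕ) (s : St) : S.comb (subComb D₀ eps s) = S.op s := by
  cases s with
  | win k a b =>
    simp only [subComb]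
    split_ifs
    · exact S.comb_winComb k a b
    · simp [S.comb_singleton]
  | bh k => simp [subComb, S.comb_singleton]
  | one k a => simp [subComb, S.comb_singleton]
  | word l => simp [subComb, S.comb_singleton]

/-- The substitution keeps the value. -/
theorem Sys.ev_substLin (D₀ : ℕ) (L : Lin ℝ) : S.ev (substLin D₀ eps L) = S.ev L := by
  induction L with
  | nil => simp [substLin]
  | cons p L ih =>
    rw [substLin, List.flatMap_cons, S.ev_append, S.ev_scale, S.ev_cross, S.comb_subComb,
      S.comb_subComb, S.ev_cons]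
    rw [substLin] at ih
    rw [ih]
    rfl

theorem mapC_subComb {R R' : Type*} [CommRing R] [CommRing R'] (f : R →+* R') (D₀ : ℕ) (e : R)
    (s : St) : mapC f (subComb D₀ e s) = subComb D₀ (f e) s := by
  cases s <;> simp only [subComb] <;> (try split_ifs) <;>
    first | exact mapC_winComb f e _ _ _ | simp [mapC]

theorem mapC_substLin {R R' : Type*} [CommRing R] [CommRing R'] (f : R →+* R') (D₀ : ℕ) (e : R)
    (L : Lin R) : mapC f (substLin D₀ e L) = substLin D₀ (f e) (mapC f L) := by
  simp only [substLin, mapC_flatMap, mapC_scale, mapC_cross, mapC_subComb]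
  simp [mapC, List.flatMap_map]

/-- The substituted residual. -/
def substResidual {R : Type*} [CommRing R] [Algebra ℚ R] (D₀ : ℕ) (P : Par R) (d : Data) : Lin R :=
  substLin D₀ P.eps (residual P d)

theorem mapC_substResidual {R R' : Type*} [CommRing R] [CommRing R'] [Algebra ℚ R] [Algebra ℚ R']
    (f : R →+* R') (D₀ : ℕ) (P : Par R) (d : Data) :
    mapC f (substResidual D₀ P d) = substResidual D₀ (P.map f) d := by
  rw [substResidual, mapC_substLin, mapC_residual]
  rfl

theorem substResidual_keys {R R' : Type*} [CommRing R] [CommRing R'] [Algebra ℚ R] [Algebra ℚ R']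
    (D₀ : ℕ) (P : Par R) (P' : Par R') (d : Data) :
    (substResidual D₀ P d).map Prod.snd = (substResidual D₀ P' d).map Prod.snd := by
  let PP : Par (R × R') :=
    ⟨(P.eps, P'.eps), (P.c, P'.c), fun n => (P.kap n, P'.kap n), fun n => (P.wy n, P'.wy n)⟩
  have h₁ := congrArg (List.map Prod.snd) (mapC_substResidual (RingHom.fst R R') D₀ PP d)
  have h₂ := congrArg (List.map Prod.snd) (mapC_substResidual (RingHom.snd R R') D₀ PP d)
  rw [mapC_keys] at h₁ h₂
  exact h₁.symm.trans h₂

theorem tendsto_coeffAt_substResidual (D₀ : ℕ) (d : Data) (s t : St) :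
    Tendsto (fun e : ℝ => coeffAt (substResidual D₀ (parAt e) d) s t) (𝓝 0)
      (𝓝 ((coeffAt (substResidual D₀ (parAt (0 : ℚ)) d) s t : ℚ) : ℝ)) := by
  refine tendsto_of_natural (coeffAt (substResidual D₀ parFun d) s t) _ _ (fun e => ?_) ?_
  · rw [← coeffAt_mapC, mapC_substResidual, parFun_map]
  · rw [← parAt_map_cast, ← mapC_substResidual, coeffAt_mapC]
    rfl

/-- Checked blocks of the substituted rational residual make the real residual eventually
nonnegative. -/
theorem eventually_residual_nonneg (D₀ : ℕ) (d : Data) (Bs : List (List St))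
    (hnd : Bs.flatten.Nodup)
    (hcov : ∀ p ∈ substResidual D₀ (parAt (0 : ℚ)) d, ∃ b ∈ Bs, p.2.1 ∈ b ∧ p.2.2 ∈ b)
    (hchk : ∀ b ∈ Bs, ∃ (R : List (List ℚ)) (w : List ℚ) (B : List (List ℤ)),
      CertCheck.checkQ b.length R w B = true ∧ ∀ i j : Fin b.length,
        coeffAt (substResidual D₀ (parAt (0 : ℚ)) d) (b.get i) (b.get j) = CertCheck.rEnt R i j) :
    ∀ᶠ eps in 𝓝 (0 : ℝ), ∀ (E : Type) [NormedAddCommGroup E] [InnerProductSpace ℂ E]
      (ι : Type) [Fintype ι] (S : Sys eps E ι), 0 ≤ S.ev (residual (parAt eps) d) := by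
  have hev : ∀ b ∈ Bs, ∀ᶠ eps in 𝓝 (0 : ℝ), ∃ (m : ℕ) (B' : Fin b.length → Fin m → ℝ)
      (w : Fin b.length → ℝ), (∀ i, 0 < w i) ∧ Psd.Cert (fun i j =>
        w i * coeffAt (substResidual D₀ (parAt eps) d) (b.get i) (b.get j) * w j) B' := by
    intro b hb
    obtain ⟨R, w, B, hQ, hR⟩ := hchk b hb
    obtain ⟨m, B', hB⟩ := CertCheck.cert_of_checkQ hQ
    refine (hB.eventually (F := fun eps i j => ((w.getD i 0 : ℚ) : ℝ) *
      coeffAt (substResidual D₀ (parAt eps) d) (b.get i) (b.get j) * ((w.getD j 0 : ℚ) : ℝ))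
      fun i j => ?_).mono fun eps he => ⟨m, B', _, CertCheck.weight_pos hQ, he⟩
    refine (tendsto_const_nhds.mul ?_).mul tendsto_const_nhds
    rw [← hR i j]
    exact tendsto_coeffAt_substResidual D₀ d _ _
  have hfin : ∀ᶠ eps in 𝓝 (0 : ℝ), ∀ b ∈ Bs, ∃ (m : ℕ) (B' : Fin b.length → Fin m → ℝ)
      (w : Fin b.length → ℝ), (∀ i, 0 < w i) ∧ Psd.Cert (fun i j =>
        w i * coeffAt (substResidual D₀ (parAt eps) d) (b.get i) (b.get j) * w j) B' := by
    have := (Filter.eventually_all_finset Bs.toFinset).2 fun b hb => hev b (List.mem_toFinset.1 hb)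
    exact this.mono fun eps h b hb => h b (List.mem_toFinset.2 hb)
  filter_upwards [hfin] with eps h E _ _ ι _ S
  rw [← S.ev_substLin D₀]
  refine S.ev_nonneg_of_blocks _ Bs hnd (fun p hp => ?_) fun b hb φ => ?_
  · have hk : p.2 ∈ (substResidual D₀ (parAt eps) d).map Prod.snd := List.mem_map.2 ⟨p, hp, rfl⟩
    rw [substResidual_keys D₀ (parAt eps) (parAt (0 : ℚ)) d] at hk
    obtain ⟨q, hq, he⟩ := List.mem_map.1 hk
    rw [← he]
    exact hcov q hq
  · obtain ⟨m, B', w, hw, hC⟩ := h b hb
    refine (hC.form_nonneg (𝕜 := ℂ) fun i => (((w i)⁻¹ : ℝ) : ℂ) • φ i).trans_eq ?_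
    refine sum_congr rfl fun i _ => sum_congr rfl fun j _ => ?_
    have hi := (hw i).ne'
    have hj := (hw j).ne'
    simp only [inner_smul_left, inner_smul_right, Complex.conj_ofReal, re_to_complex,
      Complex.re_ofReal_mul]
    show w i * coeffAt (substResidual D₀ (parAt eps) d) (b.get i) (b.get j) * w j * _ = _
    field_simp
    exact mul_comm _ _

end Vale.Agent.P359.Moment
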