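import Vale.Agent.P359.Moment.Cert.Cover
import Vale.Agent.P359.Moment.Cert.C6
import Vale.Agent.P359.Moment.Cert.C0
import Vale.Agent.P359.Moment.Cert.C46

/-!
The moment certificate holds.
-/

namespace Vale.Agent.P359.Moment

open Cert in
theorem certGoal : CertGoal := by
  refine certGoal_of_classes data classes cover fun c hc => ?_
  simp only [classes, List.mem_cons, List.not_mem_nil, or_false] at hc
  rcases hc with rfl | rfl | rfl | rfl | rfl | rfl | rfl | rfl | rfl | rfl | rfl | rfl | rfl | rfl | rfl | rfl | rfl | rfl | rfl | rfl | rfl | rfl | rfl | rfl | rfl | rfl | rfl | rfl | rfl | rfl | rfl | rfl | rfl | rfl | rfl | rfl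
  · exact C0.goal
  · exact C1.goal
  · exact C3.goal
  · exact C5.goal
  · exact C6.goal
  · exact C7.goal
  · exact C8.goal
  · exact C9.goal
  · exact C10.goal
  · exact C11.goal
  · exact C12.goal
  · exact C13.goal
  · exact C14.goal
  · exact C15.goal
  · exact C16.goal
  · exact C17.goal
  · exact C18.goal
  · exact C19.goal
  · exact C20.goal
  · exact C21.goal
  · exact C22.goal
  · exact C23.goal
  · exact C24.goal
  · exact C25.goal
  · exact C26.goal
  · exact C27.goal
  · exact C28.goal
  · exact C30.goal
  · exact C32.goal
  · exact C34.goal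
  · exact C36.goal
  · exact C38.goal
  · exact C40.goal
  · exact C42.goal
  · exact C44.goal
  · exact C46.goal

end Vale.Agent.P359.Moment
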