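import Vale.Agent.P359.Moment.Lin

/-!
What the finite certificate has to prove.
-/

open Filter
open scoped Topology

namespace Vale.Agent.P359.Moment

/-- The moment inequality, for all small `eps` and every invariant system. -/
def CertGoal : Prop :=
  ∀ᶠ eps in 𝓝 (0 : ℝ), ∀ (E : Type) [NormedAddCommGroup E] [InnerProductSpace ℂ E]
    (ι : Type) [Fintype ι] (S : Sys eps E ι), 0 ≤ S.ev (target (parAt eps))

end Vale.Agent.P359.Moment
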