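import Vale.Agent.P359.Moment.Inst
import Vale.Agent.P359.Moment.Goal

/-!
`GapConjecture` from the four statements about the moment system of an invariant family.
-/

open Finset RCLike Filter
open scoped InnerProductSpace Topology

namespace Vale.Agent.P359.Moment

/-- The pair energy of a family. -/
noncomputable def phiH {Q r : ℕ} (χ : Fin r → FockQ Q) : ℝ :=
  ∑ i, ∑ m, ‖pairFam (χ i) m‖ ^ 2

/-- The exchange form of a family. -/
noncomputable def phiT {Q r : ℕ} (χ : Fin r → FockQ Q) : ℝ :=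
  ∑ i, wForm (Kk (coef Q)) (pairFam (χ i))

/-- The two-pair form of a family. -/
noncomputable def phiY {Q r : ℕ} (χ : Fin r → FockQ Q) : ℝ :=
  ∑ i, yForm (pairFam (χ i))

section

variable {E : Type*} [NormedAddCommGroup E] [InnerProductSpace ℂ E] {eps : ℝ} {ι : Type*}
  [Fintype ι] (S : Sys eps E ι)

/-- The pair moment. -/
noncomputable def Sys.tau : ℝ := S.val (St.bh 0, St.bh 0)

/-- The moment of channel `n`. -/
noncomputable def Sys.yMom (n : ℕ) : ℝ :=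
  pform S.χ (S.comb (z1 eps n)) (S.comb (z1 eps n))

/-- The moment of the two-pair channel `n`. -/
noncomputable def Sys.wMom (n : ℕ) : ℝ :=
  pform S.χ (S.comb (z2 eps n)) (S.comb (z2 eps n))

end

/-- The value of the target. -/
def TargetEval : Prop :=
  ∀ (E : Type) [NormedAddCommGroup E] [InnerProductSpace ℂ E] (ι : Type) [Fintype ι] (eps : ℝ)
    (S : Sys eps E ι),
    S.ev (target (parAt eps)) = (cRat : ℝ) * (2 - eps) * S.tau -
      (tSet.map fun n => kapW eps n * S.yMom n).sum + (ySet.map fun n => wyW eps n * S.wMom n).sum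

/-- The pair energy in moments. -/
def StmtH : Prop :=
  ∀ Q r : ℕ, ∀ (hQ : 0 < Q) (χ : Fin r → FockQ Q)
    (h : Ladder.IsInvariant (Rb Q) (Lb Q) (Pf χ)),
    phiH χ = (2 * (Q : ℝ) - 1) / 4 * (sysQ hQ χ h).tau

/-- The exchange form: exact channels and the tail. -/
def StmtT : Prop :=
  ∃ Q₀ : ℕ, ∀ Q r : ℕ, Q₀ ≤ Q → ∀ (hQ : 0 < Q) (χ : Fin r → FockQ Q)
    (h : Ladder.IsInvariant (Rb Q) (Lb Q) (Pf χ)),
    phiT χ ≤ (Q : ℝ) / 4 * (tSet.map fun n => kapW (epsQ Q) n * (sysQ hQ χ h).yMom n).sum +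
      1 / 20 * phiH χ

/-- The two-pair slack. -/
def StmtY : Prop :=
  ∃ Q₀ : ℕ, ∀ Q r : ℕ, Q₀ ≤ Q → ∀ (hQ : 0 < Q) (χ : Fin r → FockQ Q)
    (h : Ladder.IsInvariant (Rb Q) (Lb Q) (Pf χ)),
    (Q : ℝ) / 4 * (ySet.map fun n => wyW (epsQ Q) n * (sysQ hQ χ h).wMom n).sum ≤ phiY χ

theorem tendsto_epsQ : Tendsto epsQ atTop (𝓝 0) := by
  unfold epsQ
  exact tendsto_one_div_atTop_nhds_zero_nat

/-- The uniform bound on invariant functionals. -/
theorem phiCert_of_parts (hev : TargetEval) (hH : StmtH) (hT : StmtT) (hY : StmtY)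
    (hC : CertGoal) : PhiCert := by
  obtain ⟨Q₁, hT⟩ := hT
  obtain ⟨Q₂, hY⟩ := hY
  obtain ⟨Q₃, hC⟩ := Filter.eventually_atTop.1 (tendsto_epsQ.eventually hC)
  refine ⟨13 / 1000, by norm_num, Q₁ + Q₂ + Q₃ + 1, fun Q hQ M r χ _ hi => ?_⟩
  have hQ0 : 0 < Q := by omega
  have hq : (Q : ℝ) * epsQ Q = 1 := mul_one_div_cancel (Nat.cast_ne_zero.2 hQ0.ne')
  have h1 := hH Q r hQ0 χ hi
  have h2 := hT Q r (by omega) hQ0 χ hi
  have h3 := hY Q r (by omega) hQ0 χ hi
  have h4 := hC Q (by omega) (FockQ Q) (Fin r) (sysQ hQ0 χ hi)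
  rw [hev] at h4
  have h5 := mul_nonneg (by positivity : (0 : ℝ) ≤ (Q : ℝ) / 4) h4
  have hc : (cRat : ℝ) = 937 / 1000 := by norm_num [cRat]
  have h6 : (Q : ℝ) / 4 * ((cRat : ℝ) * (2 - epsQ Q) * (sysQ hQ0 χ hi).tau) =
      937 / 1000 * phiH χ := by
    rw [h1, hc]
    linear_combination -(937 / 4000 * (sysQ hQ0 χ hi).tau) * hq
  rw [mul_add, mul_sub, h6] at h5
  show phiT χ ≤ (1 - 13 / 1000) * phiH χ + phiY χ
  linarith

/-- Q1 from the parts. -/
theorem gapConjecture_of_parts (hev : TargetEval) (hH : StmtH) (hT : StmtT) (hY : StmtY)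
    (hC : CertGoal) : GapConjecture :=
  gapConjecture_of_phiCert (phiCert_of_parts hev hH hT hY hC)

end Vale.Agent.P359.Moment
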