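import Vale.Agent.P359.Moment.Lin

/-!
The programs of the moment certificate commute with ring homomorphisms. Hence their monomials do
not depend on the parameters, and each coefficient of the residual at `eps` tends, for `eps → 0`,
to the rational coefficient at `eps = 0`.
-/

open Finset Filter
open scoped Topology

namespace Vale.Agent.P359.Moment

variable {R S : Type*} [CommRing R] [CommRing S]

section CoefMaps

variable (f : R →+* S)

theorem map_eCo (r e : R) (i : ℕ) : f (Coef.eCo r e i) = Coef.eCo (f r) (f e) i := by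
  simp [Coef.eCo]

theorem map_nrm (r e : R) (i : ℕ) : f (Coef.nrm r e i) = Coef.nrm (f r) (f e) i := by
  simp [Coef.nrm, map_eCo]

theorem map_hw (r₁ r₂ e : R) (n i : ℕ) :
    f (Coef.hw r₁ r₂ e n i) = Coef.hw (f r₁) (f r₂) (f e) n i := by
  simp [Coef.hw, apply_ite f]

theorem map_desc (r₁ r₂ e : R) (n M i : ℕ) :
    f (Coef.desc r₁ r₂ e n M i) = Coef.desc (f r₁) (f r₂) (f e) n M i := by
  simp [Coef.desc, apply_ite f, map_hw]

theorem map_rhoJ (e : R) : f (Coef.rhoJ e) = Coef.rhoJ (f e) := by
  simp [Coef.rhoJ, map_ofNat]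

theorem map_co (e : R) (n M i : ℕ) : f (Coef.co e n M i) = Coef.co (f e) n M i := by
  simp [Coef.co, map_desc, map_rhoJ]

theorem map_hwNrm (r₁ r₂ e : R) (n : ℕ) :
    f (Coef.hwNrm r₁ r₂ e n) = Coef.hwNrm (f r₁) (f r₂) (f e) n := by
  simp [Coef.hwNrm, map_hw, map_nrm]

theorem map_coNrm (e : R) (n : ℕ) : f (Coef.coNrm e n) = Coef.coNrm (f e) n := by
  simp [Coef.coNrm, map_hwNrm, map_rhoJ]

end CoefMaps

/-- Apply a map to all coefficients. -/
def mapC {α : Type*} (f : R → S) (L : List (R × α)) : List (S × α) :=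
  L.map fun p => (f p.1, p.2)

omit [CommRing R] [CommRing S] in
theorem mapC_keys {α : Type*} (f : R → S) (L : List (R × α)) :
    (mapC f L).map Prod.snd = L.map Prod.snd := by
  simp [mapC, List.map_map, Function.comp_def]

section Programs

variable (f : R →+* S)

theorem mapC_append {α : Type*} (A B : List (R × α)) :
    mapC f (A ++ B) = mapC f A ++ mapC f B := List.map_append

theorem mapC_flatMap {α β : Type*} (L : List β) (g : β → List (R × α)) :
    mapC f (L.flatMap g) = L.flatMap fun b => mapC f (g b) := List.map_flatMap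

theorem mapC_scale {α : Type*} (c : R) (L : List (R × α)) :
    mapC f (scale c L) = scale (f c) (mapC f L) := by
  simp [mapC, scale, List.map_map, Function.comp_def]

theorem mapC_cross (A B : Comb R) : mapC f (cross A B) = cross (mapC f A) (mapC f B) := by
  simp [mapC, cross, List.map_flatMap, List.flatMap_map, List.map_map, Function.comp_def]

theorem mapC_accum {α : Type*} [DecidableEq α] (p : R × α) (L : List (R × α)) :
    mapC f (accum p L) = accum (f p.1, p.2) (mapC f L) := by
  induction L with
  | nil => rfl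
  | cons q l ih =>
    by_cases h : q.2 = p.2
    · simp [accum, mapC, h]
    · have e : accum p (q :: l) = q :: accum p l := by simp [accum, h]
      rw [e]
      simp only [mapC, List.map_cons] at ih ⊢
      rw [ih]
      simp [accum, h]

theorem mapC_collect {α : Type*} [DecidableEq α] (L : List (R × α)) :
    mapC f (collect L) = collect (mapC f L) := by
  induction L with
  | nil => rfl
  | cons q l ih =>
    show mapC f (accum q (collect l)) = accum (f q.1, q.2) (collect (mapC f l))
    rw [mapC_accum, ih]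

theorem map_sgn (b : Bool) : f (sgn b) = sgn b := by
  cases b <;> simp [sgn]

theorem mapC_wordComb (c : R) (l : List ℕ) : mapC f (wordComb c l) = wordComb (f c) l := by
  unfold wordComb
  cases canon l <;> simp [mapC, map_sgn]

theorem mapC_winComb (e : R) (k a b : ℕ) : mapC f (winComb e k a b) = winComb (f e) k a b := by
  simp [winComb, mapC_flatMap, mapC_wordComb, map_desc]

theorem mapC_pairsComb (e : R) (k l : ℕ) : mapC f (pairsComb e k l) = pairsComb (f e) k l := by
  simp [pairsComb, mapC_flatMap, mapC_wordComb, map_desc]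

theorem mapC_z1 (e : R) (n : ℕ) : mapC f (z1 e n) = z1 (f e) n := by
  simp [mapC, z1, List.map_map, Function.comp_def, map_co]

theorem mapC_z2 (e : R) (n : ℕ) : mapC f (z2 e n) = z2 (f e) n := by
  simp [z2, mapC_collect, mapC_flatMap, mapC_scale, mapC_pairsComb, map_hw, map_rhoJ]

theorem mapC_winKey (c : R) (k a b : ℕ) : mapC f (winKey c k a b) = winKey (f c) k a b := by
  unfold winKey
  split_ifs <;> simp [mapC]

/-- Apply a map to all scalars of a target. -/
def Par.map (P : Par R) : Par S :=
  ⟨f P.eps, f P.c, fun n => f (P.kap n), fun n => f (P.wy n)⟩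

theorem mapC_target (P : Par R) : mapC f (target P) = target (P.map f) := by
  simp only [target, mapC_append, mapC_flatMap, mapC_scale, mapC_cross, mapC_z1, mapC_z2, map_neg]
  simp [mapC, Par.map, map_ofNat]

theorem mapC_rowPair (e : R) (r r' : Row) : mapC f (rowPair e r r') = rowPair (f e) r r' := by
  cases r <;> cases r' <;> simp only [rowPair]
  · split_ifs <;> simp [mapC, map_nrm, map_rhoJ]
  · simp [mapC]
  · simp [mapC]
  · rw [mapC_append, mapC_cross, mapC_winKey, mapC_winKey, map_neg, map_one]
    congr 1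
    split_ifs <;> simp [mapC, map_nrm]

theorem mapC_lowerWord (e : R) (I : List ℕ) : mapC f (lowerWord e I) = lowerWord (f e) I := by
  simp only [lowerWord, mapC_flatMap]
  congr 1
  funext i
  split_ifs
  · rfl
  · simp [mapC_wordComb, map_eCo]

theorem mapC_raiseWord (J : List ℕ) : mapC f (raiseWord J) = raiseWord J := by
  simp [raiseWord, mapC_flatMap, mapC_wordComb]

variable [Algebra ℚ R] [Algebra ℚ S]

theorem mapC_blockLin (e : R) (s : ℕ) (B : Block) :
    mapC f (blockLin e s B) = blockLin (f e) s B := by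
  simp only [blockLin, mapC_flatMap, mapC_scale, mapC_rowPair, RingHom.map_rat_algebraMap]

theorem mapC_gauge3 (e : R) (d : (ℕ × ℕ × ℕ × ℕ) × ℚ) :
    mapC f (gauge3 e d) = gauge3 (f e) d := by
  obtain ⟨⟨k, a, l, b⟩, z⟩ := d
  simp only [gauge3, mapC_scale, mapC_append, RingHom.map_rat_algebraMap]
  split_ifs <;> simp [mapC, map_eCo, map_rhoJ]

theorem mapC_gauge4 (e : R) (d : (List ℕ × List ℕ) × ℚ) :
    mapC f (gauge4 e d) = gauge4 (f e) d := by
  obtain ⟨⟨I, J⟩, z⟩ := d
  simp only [gauge4, mapC_scale, mapC_append, mapC_cross, mapC_lowerWord, mapC_raiseWord,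
    RingHom.map_rat_algebraMap]
  simp [mapC]

theorem mapC_nullLin (e : R) (d : (ℕ × ℕ × ℕ) × ℚ) :
    mapC f (nullLin e d) = nullLin (f e) d := by
  obtain ⟨⟨n, l, b⟩, z⟩ := d
  simp only [nullLin]
  split_ifs
  · rw [mapC_scale, mapC_cross, mapC_z1, RingHom.map_rat_algebraMap]
    simp [mapC]
  · rfl

/-- The residual commutes with ring homomorphisms. -/
theorem mapC_residual (P : Par R) (d : Data) :
    mapC f (residual P d) = residual (P.map f) d := by
  simp [residual, mapC_append, mapC_flatMap, mapC_scale, mapC_target, mapC_blockLin, mapC_gauge3,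
    mapC_gauge4, mapC_nullLin, Par.map]

end Programs

theorem coeffAt_mapC (f : R →+* S) (L : Lin R) (s t : St) :
    coeffAt (mapC f L) s t = f (coeffAt L s t) := by
  simp [coeffAt, mapC, map_list_sum, List.filter_map, List.map_map, Function.comp_def]

/-- The coefficient of one monomial. -/
def combAt (A : Comb R) (t : St) : R :=
  ((A.filter fun p => decide (p.2 = t)).map Prod.fst).sum

theorem combAt_mapC (f : R →+* S) (A : Comb R) (t : St) :
    combAt (mapC f A) t = f (combAt A t) := by
  simp [combAt, mapC, map_list_sum, List.filter_map, List.map_map, Function.comp_def]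

/-- The monomials of the residual do not depend on the parameters. -/
theorem residual_keys [Algebra ℚ R] [Algebra ℚ S] (P : Par R) (P' : Par S) (d : Data) :
    (residual P d).map Prod.snd = (residual P' d).map Prod.snd := by
  let PP : Par (R × S) :=
    ⟨(P.eps, P'.eps), (P.c, P'.c), fun n => (P.kap n, P'.kap n), fun n => (P.wy n, P'.wy n)⟩
  have h₁ := congrArg (List.map Prod.snd) (mapC_residual (RingHom.fst R S) PP d)
  have h₂ := congrArg (List.map Prod.snd) (mapC_residual (RingHom.snd R S) PP d)
  rw [mapC_keys] at h₁ h₂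
  exact h₁.symm.trans h₂

/-- The monomials of a window do not depend on `eps`. -/
theorem winComb_keys (e : R) (e' : S) (k a b : ℕ) :
    (winComb e k a b).map Prod.snd = (winComb e' k a b).map Prod.snd := by
  have h₁ := congrArg (List.map Prod.snd) (mapC_winComb (RingHom.fst R S) (e, e') k a b)
  have h₂ := congrArg (List.map Prod.snd) (mapC_winComb (RingHom.snd R S) (e, e') k a b)
  rw [mapC_keys] at h₁ h₂
  exact h₁.symm.trans h₂

section Limit

/-- The real functions continuous at `0`. -/
noncomputable def contSub : Subalgebra ℚ (ℝ → ℝ) where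
  carrier := {g | ContinuousAt g 0}
  mul_mem' := fun ha hb => ContinuousAt.mul ha hb
  add_mem' := fun ha hb => ContinuousAt.add ha hb
  algebraMap_mem' := fun _ => continuousAt_const

/-- Evaluation at a point. -/
noncomputable def evalAt (e : ℝ) : contSub →+* ℝ :=
  (Pi.evalRingHom (fun _ : ℝ => ℝ) e).comp contSub.val.toRingHom

theorem evalAt_apply (e : ℝ) (g : contSub) : evalAt e g = (g : ℝ → ℝ) e := rfl

theorem tendsto_evalAt (g : contSub) : Tendsto (fun e => evalAt e g) (𝓝 0) (𝓝 (evalAt 0 g)) :=
  g.2

theorem hwNrm_pos {a b : ℝ} (ha : 0 < a) (hb : 0 < b) (n : ℕ) :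
    0 < Coef.hwNrm a b 0 n := by
  have hn : ∀ {r : ℝ}, 0 < r → ∀ i, 0 < Coef.nrm r 0 i := fun hr i =>
    Finset.prod_pos fun l _ => by simp only [Coef.eCo, mul_zero, sub_zero]; positivity
  refine Finset.sum_pos' (fun i _ => ?_) ⟨0, by simp, ?_⟩
  · exact mul_nonneg (mul_nonneg (sq_nonneg _) (hn ha i).le) (hn hb _).le
  · refine mul_pos (mul_pos (pow_pos ?_ 2) (hn ha 0)) (hn hb _)
    simp [Coef.hw, ha]

theorem continuousAt_kapW (n : ℕ) : ContinuousAt (fun e : ℝ => kapW e n) 0 := by
  have h : Coef.coNrm (0 : ℝ) n ≠ 0 := by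
    simpa [Coef.coNrm, Coef.rhoJ] using (hwNrm_pos two_pos one_pos n).ne'
  unfold kapW
  refine ContinuousAt.div ?_ ?_ h
  · refine ((continuousAt_const.mul (tendsto_finsetProd _ fun l _ => ?_)).mul ?_).mul ?_
    · exact ContinuousAt.div (by fun_prop) (by fun_prop) (by norm_num)
    · fun_prop
    · fun_prop
  · simp only [Coef.coNrm, Coef.hwNrm, Coef.hw, Coef.nrm, Coef.eCo, Coef.rhoJ]
    apply Continuous.continuousAt
    refine continuous_finsetSum _ fun i _ => ?_
    split_ifs <;> fun_prop

theorem continuousAt_wyW (n : ℕ) : ContinuousAt (fun e : ℝ => wyW e n) 0 := by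
  have h : 4 * Coef.hwNrm (Coef.rhoJ 0) (Coef.rhoJ 0) (0 : ℝ) n ≠ 0 := by
    simpa [Coef.rhoJ] using (hwNrm_pos (two_pos : (0 : ℝ) < 2) two_pos n).ne'
  unfold wyW
  refine ContinuousAt.div ?_ ?_ h
  · fun_prop
  · simp only [Coef.hwNrm, Coef.hw, Coef.nrm, Coef.eCo, Coef.rhoJ]
    apply Continuous.continuousAt
    refine continuous_const.mul (continuous_finsetSum _ fun i _ => ?_)
    split_ifs <;> fun_prop

/-- The variable. -/
noncomputable def epsFun : contSub := ⟨fun e => e, continuousAt_id⟩

/-- The target parameters as functions of `eps`. -/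
noncomputable def parFun : Par contSub :=
  ⟨epsFun, ⟨fun _ => (cRat : ℝ), continuousAt_const⟩,
    fun n => ⟨fun e => kapW e n, continuousAt_kapW n⟩,
    fun n => ⟨fun e => wyW e n, continuousAt_wyW n⟩⟩

theorem parFun_map (e : ℝ) : parFun.map (evalAt e) = parAt e := rfl

theorem parAt_map_cast : (parAt (0 : ℚ)).map (Rat.castHom ℝ) = parAt (0 : ℝ) := by
  simp only [parAt, Par.map, Par.mk.injEq]
  refine ⟨map_zero _, by simp, funext fun n => ?_, funext fun n => ?_⟩
  · simp only [kapW, map_div₀, map_mul, map_pow, map_prod, map_sub, map_add, map_neg, map_one, map_zero,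
      map_ofNat, map_natCast, map_coNrm]
  · simp only [wyW, map_div₀, map_mul, map_sub, map_add, map_zero, map_ofNat, map_natCast,
      map_hwNrm, map_rhoJ]

/-- A program natural in ring homomorphisms has coefficients tending to the rational ones. -/
theorem tendsto_of_natural (g₀ : contSub) (q : ℚ) (F : ℝ → ℝ) (hF : ∀ e, evalAt e g₀ = F e)
    (h0 : F 0 = (q : ℝ)) : Tendsto F (𝓝 0) (𝓝 (q : ℝ)) := by
  have := tendsto_evalAt g₀
  simpa [hF, h0] using this

/-- Each coefficient of the residual tends to the rational one at `eps = 0`. -/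
theorem tendsto_coeffAt_residual (d : Data) (s t : St) :
    Tendsto (fun e : ℝ => coeffAt (residual (parAt e) d) s t) (𝓝 0)
      (𝓝 ((coeffAt (residual (parAt (0 : ℚ)) d) s t : ℚ) : ℝ)) := by
  refine tendsto_of_natural (coeffAt (residual parFun d) s t) _ _ (fun e => ?_) ?_
  · rw [← coeffAt_mapC, mapC_residual, parFun_map]
  · rw [← parAt_map_cast, ← mapC_residual, coeffAt_mapC]
    rfl

/-- Each coefficient of a window tends to the rational one at `eps = 0`. -/
theorem tendsto_combAt_winComb (k a b : ℕ) (t : St) :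
    Tendsto (fun e : ℝ => combAt (winComb e k a b) t) (𝓝 0)
      (𝓝 ((combAt (winComb (0 : ℚ) k a b) t : ℚ) : ℝ)) := by
  refine tendsto_of_natural (combAt (winComb epsFun k a b) t) _ _ (fun e => ?_) ?_
  · rw [← combAt_mapC, mapC_winComb]
    rfl
  · show combAt (winComb (0 : ℝ) k a b) t = Rat.castHom ℝ (combAt (winComb (0 : ℚ) k a b) t)
    rw [← combAt_mapC, mapC_winComb, map_zero]

end Limit

end Vale.Agent.P359.Moment
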