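import Vale.Agent.P359.Moment.Gram
import Vale.Agent.P359.Moment.Words
import Vale.Agent.P359.Moment.Chain

/-!
The value of the target, the vanishing of the gauge and null forms, and the comparison of the
target with the residual.
-/

open Finset RCLike
open scoped InnerProductSpace

namespace Vale.Agent.P359.Moment

variable {E : Type*} [NormedAddCommGroup E] [InnerProductSpace ℂ E] {eps : ℝ} {ι : Type*}
  [Fintype ι] (S : Sys eps E ι)

/-- The value of the target, for any parameters. -/
theorem Sys.ev_target (P : Par ℝ) :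
    S.ev (target P) = P.c * (2 - P.eps) * S.val (St.bh 0, St.bh 0) -
      (tSet.map fun n => P.kap n * pform S.χ (S.comb (z1 P.eps n)) (S.comb (z1 P.eps n))).sum +
      (ySet.map fun n => P.wy n * pform S.χ (S.comb (z2 P.eps n)) (S.comb (z2 P.eps n))).sum := by
  simp only [target, Sys.ev_append, Sys.ev_flatMap, Sys.ev_scale, Sys.ev_cross, Sys.ev_singleton]
  have h : ∀ (l : List ℕ) (f : ℕ → ℝ) (g : ℕ → ℝ),
      (l.map fun n => -f n * g n).sum = -(l.map fun n => f n * g n).sum := by
    intro l f g
    induction l with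
    | nil => simp
    | cons a l ih => simp only [List.map_cons, List.sum_cons, ih]; ring
  rw [h]
  ring

theorem targetEval : TargetEval := fun _ _ _ _ _ eps S => S.ev_target (parAt eps)

theorem sum_list_range {M : Type*} [AddCommMonoid M] (f : ℕ → M) (m : ℕ) :
    ((List.range m).map f).sum = ∑ i ∈ Finset.range m, f i := by
  induction m with
  | zero => simp
  | succ m ih =>
    rw [List.range_succ, List.map_append, List.sum_append, ih, Finset.sum_range_succ]
    simp

/-- Lowering one particle. -/
theorem Sys.u_lower (a : ℕ) : Ladder.brk (𝕜 := ℂ) S.Fm (S.u a) =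
    if a = 0 then 0 else ((Coef.eCo 1 eps a : ℝ) : ℂ) • S.u (a - 1) := by
  cases a with
  | zero => simpa using S.ladder.lower_zero
  | succ a => simpa using S.ladder.lower a

/-- Lowering a pair. -/
theorem Sys.bh_lower (k : ℕ) : Ladder.brk (𝕜 := ℂ) S.Fm (bh eps S.u k) =
    if k = 0 then 0 else ((Coef.eCo (Coef.rhoJ eps) eps k : ℝ) : ℂ) • bh eps S.u (k - 1) := by
  cases k with
  | zero => simpa using S.bh_ladder.lower_zero
  | succ k => simpa using S.bh_ladder.lower k

/-- The gauge forms of pair and particle vanish. -/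
theorem Sys.ev_gauge3 (d : (ℕ × ℕ × ℕ × ℕ) × ℚ) : S.ev (gauge3 eps d) = 0 := by
  obtain ⟨⟨k, a, l, b⟩, z⟩ := d
  have h := S.inv (S.u a * bh eps S.u k) (S.u b * bh eps S.u l)
  have hE : S.u b * bh eps S.u l * S.Ep - S.Ep * (S.u b * bh eps S.u l) =
      S.u (b + 1) * bh eps S.u l + S.u b * bh eps S.u (l + 1) := by
    rw [← S.u_raise b, ← S.bh_raise l]
    noncomm_ring
  rw [Ladder.brk_apply, hE, Ladder.brk_mul, S.u_lower, S.bh_lower] at h
  rw [gauge3, S.ev_scale]
  simp only [S.ev_append]
  refine mul_eq_zero_of_right _ ?_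
  rw [show [((-1 : ℝ), (St.one k a, St.one l (b + 1))), (-1, (St.one k a, St.one (l + 1) b))] =
    [((-1 : ℝ), (St.one k a, St.one l (b + 1)))] ++ [(-1, (St.one k a, St.one (l + 1) b))] from rfl,
    S.ev_append, S.ev_singleton, S.ev_singleton]
  have e : pform S.χ (S.u a * bh eps S.u k) (S.u (b + 1) * bh eps S.u l) +
      pform S.χ (S.u a * bh eps S.u k) (S.u b * bh eps S.u (l + 1)) =
      pform S.χ ((if a = 0 then 0 else ((Coef.eCo 1 eps a : ℝ) : ℂ) • S.u (a - 1)) * bh eps S.u k)
          (S.u b * bh eps S.u l) +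
        pform S.χ (S.u a * if k = 0 then 0 else
            ((Coef.eCo (Coef.rhoJ eps) eps k : ℝ) : ℂ) • bh eps S.u (k - 1))
          (S.u b * bh eps S.u l) := by
    rw [← pform_add_right, ← pform_add_left]
    exact h
  split_ifs at e ⊢
  all_goals
    simp only [S.ev_nil, S.ev_singleton, zero_mul, mul_zero, smul_mul_assoc, mul_smul_comm,
      pform_zero_left, pform_smul_left, Sys.val, Sys.op] at e ⊢
    linarith

/-- A derivation on a product of particles. -/
theorem Sys.brk_prod (e : Module.End ℂ E) (c : ℕ → ℝ) (m : ℕ → ℕ)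
    (h : ∀ a, Ladder.brk (𝕜 := ℂ) e (S.u a) = (c a : ℂ) • S.u (m a)) (l : List ℕ) :
    Ladder.brk (𝕜 := ℂ) e (l.map S.u).prod = ∑ i ∈ Finset.range l.length,
      (c (l.getD i 0) : ℂ) • ((l.set i (m (l.getD i 0))).map S.u).prod := by
  induction l with
  | nil => simp [Ladder.brk_apply]
  | cons a l ih =>
    rw [List.map_cons, List.prod_cons, Ladder.brk_mul, ih, h, List.length_cons,
      Finset.sum_range_succ']
    simp only [List.getD_cons_zero, List.getD_cons_succ, List.set_cons_zero, List.set_cons_succ,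
      List.map_cons, List.prod_cons, smul_mul_assoc, Finset.mul_sum, mul_smul_comm]
    rw [add_comm]

/-- The program `raiseWord` is the bracket with the raising operator. -/
theorem Sys.comb_raiseWord (J : List ℕ) :
    S.comb (raiseWord J) = Ladder.brk (𝕜 := ℂ) S.Ep (J.map S.u).prod := by
  rw [S.brk_prod S.Ep (fun _ => 1) (· + 1) (fun a => by rw [S.ladder.raise]; simp), raiseWord,
    S.comb_flatMap, sum_list_range]
  exact sum_congr rfl fun i _ => S.comb_wordComb _ _

/-- The program `lowerWord` is the bracket with the lowering operator. -/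
theorem Sys.comb_lowerWord (I : List ℕ) :
    S.comb (lowerWord eps I) = Ladder.brk (𝕜 := ℂ) S.Fm (I.map S.u).prod := by
  rw [S.brk_prod S.Fm (fun a => if a = 0 then 0 else Coef.eCo 1 eps a) (· - 1)
    (fun a => by rw [S.u_lower]; split_ifs <;> simp), lowerWord, S.comb_flatMap, sum_list_range]
  refine sum_congr rfl fun i _ => ?_
  split_ifs with h
  · simp
  · exact S.comb_wordComb _ _

/-- The gauge forms of four particles vanish. -/
theorem Sys.ev_gauge4 (d : (List ℕ × List ℕ) × ℚ) : S.ev (gauge4 eps d) = 0 := by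
  obtain ⟨⟨I, J⟩, z⟩ := d
  rw [gauge4, S.ev_scale, S.ev_append, S.ev_cross, S.ev_cross, S.comb_lowerWord,
    S.comb_raiseWord, S.comb_singleton, S.comb_singleton, pform_smul_left, pform_smul_right]
  simp only [Sys.op, one_mul, neg_mul]
  have := S.inv (I.map S.u).prod (J.map S.u).prod
  refine mul_eq_zero_of_right _ ?_
  linarith

/-- The channels `0`, `1` and `3` vanish. -/
theorem Sys.comb_z1_null {n : ℕ} (hn : n = 0 ∨ n = 1 ∨ n = 3) : S.comb (z1 eps n) = 0 := by
  have key : S.comb (z1 eps n) = S.comb ((List.range (n + 1)).flatMap fun i =>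
      (List.range (i + 2)).flatMap fun j =>
        wordComb (Coef.co eps n 0 i * Coef.desc 1 1 eps 1 i j) [n - i, i + 1 - j, j]) := by
    rw [z1, S.comb_map, S.comb_flatMap, sum_list_range, sum_list_range]
    refine sum_congr rfl fun i _ => ?_
    rw [S.comb_flatMap, sum_list_range]
    simp only [S.comb_wordComb, Sys.op, bh_eq, Finset.mul_sum, Finset.smul_sum, mul_smul_comm,
      smul_smul, Complex.ofReal_mul]
    exact sum_congr rfl fun j _ => by simp
  rw [key]
  rcases hn with rfl | rfl | rfl
  · simp [List.range_succ, wordComb, canon, ins]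
  · simp [List.range_succ, wordComb, canon, ins]
  · simp [List.range_succ, wordComb, canon, ins, sgn, Sys.comb]
    simp only [← neg_smul, ← add_smul]
    refine smul_eq_zero_of_left ?_ _
    simp [Coef.co, Coef.desc, Coef.hw, Coef.rhoJ, Finset.sum_range_succ, Finset.prod_range_succ,
      Finset.prod_Ico_eq_prod_range, Nat.choose]
    ring

/-- The null forms vanish. -/
theorem Sys.ev_nullLin (d : (ℕ × ℕ × ℕ) × ℚ) : S.ev (nullLin eps d) = 0 := by
  obtain ⟨⟨n, l, b⟩, z⟩ := d
  rw [nullLin]
  split_ifs with h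
  · rw [S.ev_scale, S.ev_cross, S.comb_z1_null h, pform_zero_left, mul_zero]
  · exact S.ev_nil

/-- The residual is at most the target. -/
theorem Sys.ev_residual_le (P : Par ℝ) (hP : P.eps = eps) (d : Data)
    (hG : 0 ≤ S.ev (d.blocks.flatMap (blockLin eps d.S))) :
    S.ev (residual P d) ≤ S.ev (target P) := by
  have z3 : S.ev (d.g3.flatMap (gauge3 eps)) = 0 := by
    rw [S.ev_flatMap]; exact List.sum_eq_zero (by simp [S.ev_gauge3])
  have z4 : S.ev (d.g4.flatMap (gauge4 eps)) = 0 := by
    rw [S.ev_flatMap]; exact List.sum_eq_zero (by simp [S.ev_gauge4])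
  have zn : S.ev (d.null.flatMap (nullLin eps)) = 0 := by
    rw [S.ev_flatMap]; exact List.sum_eq_zero (by simp [S.ev_nullLin])
  simp only [residual, hP, S.ev_append, S.ev_scale, z3, z4, zn]
  linarith

/-- The residual of a certificate is at most the target. -/
theorem Sys.ev_residual_le_target (d : Data) :
    S.ev (residual (parAt eps) d) ≤ S.ev (target (parAt eps)) :=
  S.ev_residual_le (parAt eps) rfl d (S.ev_blocks_nonneg d.S d.blocks)

end Vale.Agent.P359.Moment
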