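import Vale.Agent.P359.CertCheck
import Vale.Agent.P359.Moment.Basic
import Vale.Agent.P359.Moment.Natural
import Vale.Agent.P359.Moment.Relations
import Vale.Agent.P359.Moment.Words
import Vale.Agent.P359.Moment.Goal

/-!
The block checker of the moment certificate and its soundness.

A linear form is split by a class function. In one class a block lists the monomials `keys` that are
kept and the monomials `srcs` that are expanded in them; the forms on both are read off as rational
matrices, and `A + Tᵀ W T` is certified positive definite. If the coefficients of a family of forms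
tend to the checked ones, the forms are eventually nonnegative on every system.
-/

open Filter Finset RCLike
open scoped InnerProductSpace Topology

namespace Vale.Agent.P359.Moment

variable {R : Type*} [CommRing R]

/-- The terms of one class. -/
def part (cls : St × St → ℕ) (c : ℕ) (L : Lin R) : Lin R :=
  L.filter fun p => decide (cls p.2 = c)

/-- The matrix of a form on two lists of monomials, filtered row by row. -/
def formMat (L : Lin R) (ks ls : List St) : List (List R) :=
  ks.map fun s =>
    (fun L' => ls.map fun t => coeffAt L' s t) (L.filter fun p => decide (p.2.1 = s))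

/-- The matrix of the expansions. -/
def combMat (X : St → Comb R) (srcs keys : List St) : List (List R) :=
  srcs.map fun s => (fun A => keys.map (combAt A)) (X s)

section Checker

open CertCheck (rEnt)

/-- The product of two rational matrices. -/
def mulM (n m k : ℕ) (W T : List (List ℚ)) : List (List ℚ) :=
  (List.range n).map fun i => (List.range k).map fun j =>
    ((List.range m).map fun q => rEnt W i q * rEnt T q j).sum

/-- The sum of a rational matrix and `Tᵀ U`. -/
def addTmul (n m : ℕ) (A T U : List (List ℚ)) : List (List ℚ) :=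
  (List.range n).map fun i => (List.range n).map fun j =>
    rEnt A i j + ((List.range m).map fun p => rEnt T p i * rEnt U p j).sum

/-- A block of the residual with the literals of its check. -/
structure Blk where
  /-- The monomials kept. -/
  keys : List St
  /-- The monomials expanded. -/
  srcs : List St
  /-- The form on the expanded monomials. -/
  W : List (List ℚ)
  /-- The expansions. -/
  T : List (List ℚ)
  /-- The product `W T`. -/
  U : List (List ℚ)
  /-- The residual. -/
  M : List (List ℚ)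
  /-- The weights. -/
  d : List ℚ
  /-- The factor. -/
  B : List (List ℤ)

/-- The supports: every term joins two kept or two expanded monomials, and expansions are kept. -/
def Blk.shapeOk (b : Blk) (L : List (St × St)) (X : St → List St) : Bool :=
  decide (b.keys ++ b.srcs).Nodup &&
  L.all (fun p => (decide (p.1 ∈ b.keys) && decide (p.2 ∈ b.keys)) ||
    (decide (p.1 ∈ b.srcs) && decide (p.2 ∈ b.srcs))) &&
  b.srcs.all fun s => (X s).all fun t => decide (t ∈ b.keys)

/-- The literals agree with the form and the expansions. -/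
def Blk.dataOk (b : Blk) (L : Lin ℚ) (X : St → Comb ℚ) : Bool :=
  decide (b.W = formMat L b.srcs b.srcs) && decide (b.T = combMat X b.srcs b.keys)

/-- The residual is `A + Tᵀ W T`. -/
def Blk.matOk (b : Blk) (L : Lin ℚ) : Bool :=
  decide (b.U = mulM b.srcs.length b.srcs.length b.keys.length b.W b.T) &&
  decide (b.M = addTmul b.keys.length b.srcs.length (formMat L b.keys b.keys) b.T b.U)

/-- The symmetric part of a rational matrix. -/
def symM (n : ℕ) (M : List (List ℚ)) : List (List ℚ) :=
  (List.range n).map fun i => (List.range n).map fun j => (rEnt M i j + rEnt M j i) / 2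

/-- The symmetric part of the residual is positive definite. -/
def Blk.pdOk (b : Blk) : Bool :=
  CertCheck.checkQ b.keys.length (symM b.keys.length b.M) b.d b.B

theorem coeffAt_filter_fst (L : Lin R) (s t : St) :
    coeffAt (L.filter fun p => decide (p.2.1 = s)) s t = coeffAt L s t := by
  unfold coeffAt
  rw [List.filter_filter]
  congr 2
  refine List.filter_congr fun p _ => ?_
  by_cases h : p.2 = (s, t) <;> simp [h]

theorem rEnt_map_map {α β : Type*} (f : α → β → ℚ) (ks : List α) (ls : List β)
    (i : Fin ks.length) (j : Fin ls.length) :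
    rEnt (ks.map fun s => ls.map (f s)) i j = f ks[(i : ℕ)] ls[(j : ℕ)] := by
  unfold rEnt
  simp [List.getD_eq_getElem?_getD]

theorem rEnt_formMat (L : Lin ℚ) (ks ls : List St) (i : Fin ks.length) (j : Fin ls.length) :
    rEnt (formMat L ks ls) i j = coeffAt L ks[(i : ℕ)] ls[(j : ℕ)] := by
  rw [show formMat L ks ls = ks.map fun s => ls.map fun t => coeffAt L s t by
    simp only [formMat, coeffAt_filter_fst], rEnt_map_map]

theorem rEnt_combMat (X : St → Comb ℚ) (ks ls : List St) (i : Fin ks.length)
    (j : Fin ls.length) : rEnt (combMat X ks ls) i j = combAt (X ks[(i : ℕ)]) ls[(j : ℕ)] :=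
  rEnt_map_map (fun s t => combAt (X s) t) ks ls i j

theorem range_sum {M : Type*} [AddCommMonoid M] (m : ℕ) (f : ℕ → M) :
    ((List.range m).map f).sum = ∑ q : Fin m, f q := by
  rw [← List.sum_toFinset f List.nodup_range, List.toFinset_range, Fin.sum_univ_eq_sum_range]

theorem rEnt_mulM {n m k : ℕ} (W T : List (List ℚ)) (i : Fin n) (j : Fin k) :
    rEnt (mulM n m k W T) i j = ∑ q : Fin m, rEnt W i q * rEnt T q j := by
  conv_lhs => unfold mulM rEnt
  simp [List.getD_eq_getElem?_getD, range_sum, rEnt]

theorem rEnt_addTmul {n m : ℕ} (A T U : List (List ℚ)) (i j : Fin n) :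
    rEnt (addTmul n m A T U) i j = rEnt A i j + ∑ p : Fin m, rEnt T p i * rEnt U p j := by
  conv_lhs => unfold addTmul rEnt
  simp [List.getD_eq_getElem?_getD, range_sum, rEnt]

theorem rEnt_symM {n : ℕ} (M : List (List ℚ)) (i j : Fin n) :
    rEnt (symM n M) i j = (rEnt M i j + rEnt M j i) / 2 := by
  conv_lhs => unfold symM rEnt
  simp [List.getD_eq_getElem?_getD, rEnt]

/-- The entry that is certified. -/
def blockEntry (L : Lin R) (X : St → Comb R) (keys srcs : List St)
    (i j : Fin keys.length) : R :=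
  coeffAt L keys[(i : ℕ)] keys[(j : ℕ)] + ∑ p : Fin srcs.length, combAt (X srcs[(p : ℕ)]) keys[(i : ℕ)] *
    ∑ q : Fin srcs.length, coeffAt L srcs[(p : ℕ)] srcs[(q : ℕ)] *
      combAt (X srcs[(q : ℕ)]) keys[(j : ℕ)]

theorem Blk.rEnt_M {b : Blk} {L : Lin ℚ} {X : St → Comb ℚ} (h : b.dataOk L X = true)
    (h' : b.matOk L = true) (i j : Fin b.keys.length) :
    rEnt b.M i j = blockEntry L X b.keys b.srcs i j := by
  simp only [Blk.dataOk, Blk.matOk, Bool.and_eq_true, decide_eq_true_eq] at h h'
  rw [h'.2, h'.1, h.1, h.2]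
  simp only [rEnt_addTmul, rEnt_mulM, rEnt_formMat, rEnt_combMat, blockEntry]

end Checker

section Soundness

variable {E : Type*} [NormedAddCommGroup E] [InnerProductSpace ℂ E] {eps : ℝ} {ι : Type*}
  [Fintype ι] (S : Sys eps E ι)

/-- A form is the sum of its classes. -/
theorem Sys.ev_eq_sum_part (cls : St × St → ℕ) (C : Finset ℕ) (L : Lin ℝ)
    (h : ∀ p ∈ L, cls p.2 ∈ C) : S.ev L = ∑ c ∈ C, S.ev (part cls c L) := by
  induction L with
  | nil => simp [part]
  | cons p L ih =>
    have hs : ∀ c, S.ev (part cls c (p :: L)) =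
        (if cls p.2 = c then p.1 * S.val p.2 else 0) + S.ev (part cls c L) := by
      intro c
      by_cases hc : cls p.2 = c <;> simp [part, hc, S.ev_cons]
    rw [S.ev_cons, ih fun q hq => h q (by simp [hq])]
    simp only [hs, sum_add_distrib, sum_ite_eq, if_pos (h p (by simp))]

theorem coeffAt_cons (p : R × (St × St)) (L : Lin R) (s t : St) :
    coeffAt (p :: L) s t = (if p.2 = (s, t) then p.1 else 0) + coeffAt L s t := by
  unfold coeffAt
  by_cases h : p.2 = (s, t) <;> simp [h]

theorem coeffAt_eq_zero {L : Lin R} {s t : St} (h : ∀ p ∈ L, p.2 ≠ (s, t)) :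
    coeffAt L s t = 0 := by
  unfold coeffAt
  rw [List.filter_eq_nil_iff.2 (by simpa using h)]
  simp

/-- A form on a finite set of monomials. -/
theorem Sys.ev_eq_sum_coeff (A : Finset St) (L : Lin ℝ)
    (h : ∀ p ∈ L, p.2.1 ∈ A ∧ p.2.2 ∈ A) :
    S.ev L = ∑ s ∈ A, ∑ t ∈ A, coeffAt L s t * S.val (s, t) := by
  induction L with
  | nil => simp [coeffAt]
  | cons p L ih =>
    obtain ⟨c, s₀, t₀⟩ := p
    have h0 := h (c, s₀, t₀) (by simp)
    simp only [coeffAt_cons, add_mul, sum_add_distrib, S.ev_cons, ← ih fun q hq => h q (by simp [hq])]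
    congr 1
    rw [sum_eq_single s₀ (fun s _ hs => sum_eq_zero fun t _ => by simp [Ne.symm hs])
      (fun hs => absurd h0.1 hs), sum_eq_single t₀ (fun t _ ht => by simp [Ne.symm ht])
      (fun ht => absurd h0.2 ht)]
    simp

theorem sum_toFinset_fin {M : Type*} [AddCommMonoid M] {l : List St} (hl : l.Nodup)
    (f : St → M) : ∑ s ∈ l.toFinset, f s = ∑ i : Fin l.length, f l[(i : ℕ)] := by
  rw [List.sum_toFinset f hl, ← List.sum_ofFn]
  congr 1
  exact (List.ofFn_getElem_eq_map l f).symm

/-- A combination on given monomials. -/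
theorem Sys.comb_eq_sum {keys : List St} (hk : keys.Nodup) (A : Comb ℝ)
    (h : ∀ p ∈ A, p.2 ∈ keys) :
    S.comb A = ∑ i : Fin keys.length, ((combAt A keys[(i : ℕ)] : ℝ) : ℂ) • S.op keys[(i : ℕ)] := by
  rw [← sum_toFinset_fin hk fun s => ((combAt A s : ℝ) : ℂ) • S.op s]
  induction A with
  | nil => simp [combAt]
  | cons p A ih =>
    have hc : ∀ s, combAt (p :: A) s = (if p.2 = s then p.1 else 0) + combAt A s := by
      intro s
      by_cases hs : p.2 = s <;> simp [combAt, hs]
    simp only [hc, Complex.ofReal_add, add_smul, sum_add_distrib, S.comb_cons,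
      ← ih fun q hq => h q (by simp [hq])]
    congr 1
    rw [sum_eq_single p.2 (fun s _ hs => by simp [Ne.symm hs])
      (fun hs => absurd (List.mem_toFinset.2 (h p (by simp))) hs)]
    simp

/-- One block: the form is the block matrix on the kept monomials. -/
theorem Sys.ev_eq_block {keys srcs : List St} (hn : (keys ++ srcs).Nodup) (L : Lin ℝ)
    (X : St → Comb ℝ)
    (hL : ∀ p ∈ L, (p.2.1 ∈ keys ∧ p.2.2 ∈ keys) ∨ (p.2.1 ∈ srcs ∧ p.2.2 ∈ srcs))
    (hX : ∀ s ∈ srcs, ∀ p ∈ X s, p.2 ∈ keys) (hop : ∀ s ∈ srcs, S.op s = S.comb (X s)) :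
    S.ev L = ∑ i : Fin keys.length, ∑ j : Fin keys.length,
      blockEntry L X keys srcs i j * S.val (keys[(i : ℕ)], keys[(j : ℕ)]) := by
  obtain ⟨hk, hs, hdis⟩ := List.nodup_append.1 hn
  have hd : Disjoint keys.toFinset srcs.toFinset :=
    Finset.disjoint_left.2 fun a ha hb =>
      hdis a (List.mem_toFinset.1 ha) a (List.mem_toFinset.1 hb) rfl
  rw [S.ev_eq_sum_coeff (keys.toFinset.disjUnion srcs.toFinset hd) L fun p hp => by
    rcases hL p hp with h | h <;> simp [h.1, h.2]]
  simp only [sum_disjUnion, sum_add_distrib]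
  have z1 : ∀ s ∈ keys.toFinset, ∀ t ∈ srcs.toFinset, coeffAt L s t = 0 ∧ coeffAt L t s = 0 := by
    intro s hsK t htS
    simp only [List.mem_toFinset] at hsK htS
    constructor <;> refine coeffAt_eq_zero fun p hp e => ?_ <;>
      rcases hL p hp with h | h <;> rw [e] at h
    · exact hdis t h.2 t htS rfl
    · exact hdis s hsK s h.1 rfl
    · exact hdis t h.1 t htS rfl
    · exact hdis s hsK s h.2 rfl
  rw [show ∑ s ∈ keys.toFinset, ∑ t ∈ srcs.toFinset, coeffAt L s t * S.val (s, t) = 0 from
      sum_eq_zero fun s hs' => sum_eq_zero fun t ht => by rw [(z1 s hs' t ht).1, zero_mul],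
    show ∑ s ∈ srcs.toFinset, ∑ t ∈ keys.toFinset, coeffAt L s t * S.val (s, t) = 0 from
      sum_eq_zero fun s hs' => sum_eq_zero fun t ht => by rw [(z1 t ht s hs').2, zero_mul]]
  simp only [sum_toFinset_fin hk, sum_toFinset_fin hs, add_zero, zero_add]
  have hval : ∀ p q : Fin srcs.length, S.val (srcs[(p : ℕ)], srcs[(q : ℕ)]) =
      ∑ i : Fin keys.length, ∑ j : Fin keys.length, combAt (X srcs[(p : ℕ)]) keys[(i : ℕ)] *
        (combAt (X srcs[(q : ℕ)]) keys[(j : ℕ)] * S.val (keys[(i : ℕ)], keys[(j : ℕ)])) := by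
    intro p q
    have hp := List.getElem_mem p.2
    have hq := List.getElem_mem q.2
    simp only [Sys.val]
    rw [hop _ hp, hop _ hq, S.comb_eq_sum hk _ (hX _ hp), S.comb_eq_sum hk _ (hX _ hq),
      pform_sum_left]
    simp only [pform_smul_left, pform_sum_right, pform_smul_right, mul_sum]
    exact sum_congr rfl fun i _ => sum_congr rfl fun j _ => mul_left_comm _ _ _
  simp only [hval, blockEntry, add_mul, sum_add_distrib, mul_sum, sum_mul]
  congr 1
  rw [sum_congr rfl fun p _ => Finset.sum_comm, Finset.sum_comm]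
  refine sum_congr rfl fun i _ => ?_
  rw [sum_congr rfl fun p _ => Finset.sum_comm, Finset.sum_comm]
  refine sum_congr rfl fun j _ => sum_congr rfl fun p _ => sum_congr rfl fun q _ => ?_
  ring

end Soundness

section Limit

/-- A checked block: the forms are eventually nonnegative on every system. -/
theorem Blk.eventually_ev_nonneg (b : Blk) {L : ℝ → Lin ℝ} {L₀ : Lin ℚ} {X : ℝ → St → Comb ℝ}
    {X₀ : St → Comb ℚ} (hLk : ∀ e, (L e).map Prod.snd = L₀.map Prod.snd)
    (hXk : ∀ e, ∀ s ∈ b.srcs, (X e s).map Prod.snd = (X₀ s).map Prod.snd)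
    (hLc : ∀ s t, Tendsto (fun e => coeffAt (L e) s t) (𝓝 0) (𝓝 ((coeffAt L₀ s t : ℚ) : ℝ)))
    (hXc : ∀ s ∈ b.srcs, ∀ t, Tendsto (fun e => combAt (X e s) t) (𝓝 0) (𝓝 ((combAt (X₀ s) t : ℚ) : ℝ)))
    (hshape : b.shapeOk (L₀.map Prod.snd) (fun s => (X₀ s).map Prod.snd) = true)
    (hdata : b.dataOk L₀ X₀ = true) (hmat : b.matOk L₀ = true) (hpd : b.pdOk = true) :
    ∀ᶠ e in 𝓝 (0 : ℝ), ∀ (E : Type) [NormedAddCommGroup E] [InnerProductSpace ℂ E]
      (ι : Type) [Fintype ι] (S : Sys e E ι),
      (∀ s ∈ b.srcs, S.op s = S.comb (X e s)) → 0 ≤ S.ev (L e) := by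
  simp only [Blk.shapeOk, Bool.and_eq_true, decide_eq_true_eq, List.all_eq_true, Bool.or_eq_true]
    at hshape
  obtain ⟨⟨hn, hLm⟩, hXm⟩ := hshape
  obtain ⟨m, B', hB⟩ := CertCheck.cert_of_checkQ hpd
  have hw : ∀ i : Fin b.keys.length, ((b.d.getD i 0 : ℚ) : ℝ) ≠ 0 := fun i =>
    (CertCheck.weight_pos hpd i).ne'
  have hlim : ∀ i j : Fin b.keys.length, Tendsto (fun e => ((b.d.getD (i : ℕ) 0 : ℚ) : ℝ) *
      ((blockEntry (L e) (X e) b.keys b.srcs i j + blockEntry (L e) (X e) b.keys b.srcs j i) / 2) *
        (b.d.getD (j : ℕ) 0 : ℚ)) (𝓝 0)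
      (𝓝 (((b.d.getD (i : ℕ) 0 : ℚ) : ℝ) *
        (CertCheck.rEnt (symM b.keys.length b.M) i j : ℚ) * (b.d.getD (j : ℕ) 0 : ℚ))) := by
    intro i j
    refine (tendsto_const_nhds.mul ?_).mul tendsto_const_nhds
    rw [rEnt_symM, Blk.rEnt_M hdata hmat i j, Blk.rEnt_M hdata hmat j i]
    simp only [blockEntry, Rat.cast_add, Rat.cast_div, Rat.cast_ofNat, Rat.cast_sum, Rat.cast_mul]
    refine Tendsto.div_const (Tendsto.add ?_ ?_) 2 <;>
      exact (hLc _ _).add (tendsto_finsetSum _ fun p _ => (hXc _ (List.getElem_mem p.2) _).mul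
        (tendsto_finsetSum _ fun q _ => (hLc _ _).mul (hXc _ (List.getElem_mem q.2) _)))
  filter_upwards [hB.eventually hlim] with e he
  intro E _ _ ι _ S hop
  have hL : ∀ p ∈ L e, (p.2.1 ∈ b.keys ∧ p.2.2 ∈ b.keys) ∨ (p.2.1 ∈ b.srcs ∧ p.2.2 ∈ b.srcs) :=
    fun p hp => hLm _ (hLk e ▸ List.mem_map_of_mem hp)
  have hX : ∀ s ∈ b.srcs, ∀ p ∈ X e s, p.2 ∈ b.keys :=
    fun s hs p hp => hXm s hs _ (hXk e s hs ▸ List.mem_map_of_mem hp)
  rw [S.ev_eq_block hn (L e) (X e) hL hX hop]
  simp only [Sys.val, pform, Slack.pform, map_sum, mul_sum]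
  rw [Finset.sum_congr rfl fun i _ => Finset.sum_comm, Finset.sum_comm]
  refine sum_nonneg fun c _ => ?_
  have hf := he.form_nonneg (𝕜 := ℂ)
    fun i => ((((b.d.getD (i : ℕ) 0 : ℚ) : ℝ)⁻¹ : ℝ) : ℂ) • S.op b.keys[(i : ℕ)] (S.χ c)
  have hsym : ∀ (f g : Fin b.keys.length → Fin b.keys.length → ℝ), (∀ i j, g i j = g j i) →
      ∑ i, ∑ j, (f i j + f j i) / 2 * g i j = ∑ i, ∑ j, f i j * g i j := by
    intro f g hg
    have h2 : ∑ i, ∑ j, f j i * g i j = ∑ i, ∑ j, f i j * g i j := by
      rw [Finset.sum_comm]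
      exact sum_congr rfl fun i _ => sum_congr rfl fun j _ => by rw [hg j i]
    simp only [add_div, add_mul, sum_add_distrib, div_mul_eq_mul_div, ← sum_div, h2]
    ring
  refine le_trans hf (le_of_eq ?_)
  refine Eq.trans (sum_congr rfl fun i _ => sum_congr rfl fun j _ => ?_)
    (hsym _ (fun i j => re ⟪S.op b.keys[(i : ℕ)] (S.χ c), S.op b.keys[(j : ℕ)] (S.χ c)⟫_ℂ)
      fun i j => inner_re_symm _ _)
  simp only [inner_smul_left, inner_smul_right, RCLike.re_to_complex, Complex.conj_ofReal,
    Complex.re_ofReal_mul]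
  have := hw i
  have := hw j
  field_simp

end Limit

section Residual

/-- The class of a term: the kind and the weight of its first monomial. -/
def cls (p : St × St) : ℕ :=
  match p.1 with
  | .bh _ => 0
  | .one k a => 2 * (k + a) + 1
  | .win k a b => 2 * (k + a + b + 1) + 2
  | .word l => 2 * l.sum + 2

/-- The expansion of a window monomial. -/
def expand (eps : R) : St → Comb R
  | .win k a b => winComb eps k a b
  | _ => []

/-- Only window monomials are expanded. -/
def Blk.winsOk (b : Blk) : Bool :=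
  b.srcs.all fun s => match s with
    | .win _ _ _ => true
    | _ => false

/-- The residual at `eps = 0`, over the rationals. -/
def residual₀ (d : Data) : Lin ℚ := residual (parAt (0 : ℚ)) d

theorem part_keys {S : Type*} [CommRing S] (cls : St × St → ℕ) (c : ℕ) {L : Lin R} {L' : Lin S}
    (h : L.map Prod.snd = L'.map Prod.snd) :
    (part cls c L).map Prod.snd = (part cls c L').map Prod.snd := by
  have e := congrArg (List.filter fun k => decide (cls k = c)) h
  simpa [part, List.filter_map, Function.comp_def] using e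

theorem coeffAt_part (cls : St × St → ℕ) (c : ℕ) (L : Lin R) (s t : St) :
    coeffAt (part cls c L) s t = if cls (s, t) = c then coeffAt L s t else 0 := by
  split_ifs with h
  · unfold coeffAt part
    rw [List.filter_filter]
    congr 2
    refine List.filter_congr fun p _ => ?_
    by_cases hp : p.2 = (s, t) <;> simp [hp, h]
  · refine coeffAt_eq_zero fun p hp e => h ?_
    simpa [e] using (List.mem_filter.1 hp).2

/-- The statement proved for one class. -/
def ClassGoal (d : Data) (c : ℕ) : Prop :=
  ∀ᶠ eps in 𝓝 (0 : ℝ), ∀ (E : Type) [NormedAddCommGroup E] [InnerProductSpace ℂ E]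
    (ι : Type) [Fintype ι] (S : Sys eps E ι), 0 ≤ S.ev (part cls c (residual (parAt eps) d))

/-- A checked block settles its class. -/
theorem Blk.classGoal (b : Blk) (d : Data) (c : ℕ) (hwins : b.winsOk = true)
    (hshape : b.shapeOk ((part cls c (residual₀ d)).map Prod.snd)
      (fun s => (expand (0 : ℚ) s).map Prod.snd) = true)
    (hdata : b.dataOk (part cls c (residual₀ d)) (expand 0) = true)
    (hmat : b.matOk (part cls c (residual₀ d)) = true) (hpd : b.pdOk = true) : ClassGoal d c := by
  have hwin : ∀ s ∈ b.srcs, ∃ k a a', s = St.win k a a' := by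
    intro s hs
    have := List.all_eq_true.1 hwins s hs
    cases s <;> simp_all
  have h := b.eventually_ev_nonneg (L := fun e => part cls c (residual (parAt e) d))
    (X := fun e => expand e) (fun e => part_keys cls c (residual_keys (parAt e) (parAt 0) d))
    (fun e s hs => by
      obtain ⟨k, a, a', rfl⟩ := hwin s hs
      exact winComb_keys e 0 k a a')
    (fun s t => by
      simp only [coeffAt_part, residual₀]
      split_ifs
      · exact tendsto_coeffAt_residual d s t
      · simp)
    (fun s hs t => by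
      obtain ⟨k, a, a', rfl⟩ := hwin s hs
      exact tendsto_combAt_winComb k a a' t)
    hshape hdata hmat hpd
  refine h.mono fun e he E _ _ ι _ S => he E ι S fun s hs => ?_
  obtain ⟨k, a, a', rfl⟩ := hwin s hs
  exact (S.comb_winComb k a a').symm

/-- The certificate goal from the classes. -/
theorem certGoal_of_classes (d : Data) (C : List ℕ)
    (hC : ((residual₀ d).map Prod.snd).all (fun p => decide (cls p ∈ C)) = true)
    (h : ∀ c ∈ C, ClassGoal d c) : CertGoal := by
  have hev := (Filter.eventually_all_finite C.finite_toSet).2 h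
  refine hev.mono fun e he E _ _ ι _ S => ?_
  refine le_trans ?_ (S.ev_residual_le_target d)
  rw [S.ev_eq_sum_part cls C.toFinset _ fun p hp => ?_]
  · exact Finset.sum_nonneg fun c hc => he c (List.mem_toFinset.1 hc) E ι S
  · have hm : p.2 ∈ (residual₀ d).map Prod.snd :=
      residual_keys (parAt e) (parAt (0 : ℚ)) d ▸ List.mem_map_of_mem hp
    exact List.mem_toFinset.2 (by simpa using List.all_eq_true.1 hC _ hm)

end Residual

end Vale.Agent.P359.Moment
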