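import Vale.Agent.P359.Moment.Check

/-!
Fast evaluation of one class of the residual in the kernel.

A class only meets few generators. `residAt` visits just those; `part_residual` says that it is
the class of the residual, given the cheap check `tagsOk` of the classes of the generators. The
list programs are written with the recursor, which the kernel reduces much faster.
-/

namespace Vale.Agent.P359.Moment

/-- `List.filter` by the recursor. -/
noncomputable def rfilter {α : Type*} (f : α → Bool) (l : List α) : List α :=
  List.rec (motive := fun _ => List α) [] (fun a _ r => cond (f a) (a :: r) r) l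

theorem rfilter_eq {α : Type*} (f : α → Bool) (l : List α) : rfilter f l = l.filter f := by
  induction l with
  | nil => rfl
  | cons a l ih =>
    change cond (f a) (a :: rfilter f l) (rfilter f l) = _
    rw [ih, List.filter_cons]
    cases f a <;> rfl

/-- `List.flatMap` by the recursor. -/
noncomputable def rflat {α β : Type*} (l : List α) (f : α → List β) : List β :=
  List.rec (motive := fun _ => List β) []
    (fun a _ r => List.rec (motive := fun _ => List β) r (fun x _ s => x :: s) (f a)) l

theorem rflat_eq {α β : Type*} (l : List α) (f : α → List β) : rflat l f = l.flatMap f := by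
  induction l with
  | nil => rfl
  | cons a l ih =>
    change List.rec (motive := fun _ => List β) (rflat l f) (fun x _ s => x :: s) (f a) = _
    rw [ih, List.flatMap_cons]
    induction f a with
    | nil => rfl
    | cons x t iht => exact congrArg (x :: ·) iht

variable {R : Type*} [CommRing R]

/-- The classes two rows can reach. -/
def mayPair (c : ℕ) : Row → Row → Bool
  | .scal _, .scal _ => c == 0
  | .scal k, .full _ a _ => c == 2 * (k + a) + 1
  | .full k _ b, .scal _ => c == 2 * (k + b) + 1
  | .full k _ b, .full _ a' _ => c == 2 * (k + b) + 1 || c == 2 * (k + a' + b + 1) + 2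

/-- Whether a row can reach a class. -/
def mayRow (c : ℕ) : Row → Bool
  | .scal _ => true
  | .full k _ b => c == 2 * (k + b) + 1 || (c % 2 == 0 && decide (2 * (k + b) + 4 ≤ c))

theorem cls_winKey {c : R} {k a b : ℕ} (t : St) :
    ∀ p ∈ winKey c k a b, cls (p.2, t) = 2 * (k + a + b + 1) + 2 := by
  intro p hp
  unfold winKey at hp
  split_ifs at hp <;> simp_all [cls] <;> omega

theorem cls_rowPair (eps : R) (c : ℕ) (r r' : Row) (h : mayPair c r r' = false) :
    ∀ p ∈ rowPair eps r r', cls p.2 ≠ c := by
  intro p hp
  cases r <;> cases r' <;> simp only [rowPair] at hp <;> simp only [mayPair] at h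
  · split_ifs at hp <;> simp_all [cls] <;> omega
  · simp_all [cls]; omega
  · simp_all [cls]; omega
  · simp only [Bool.or_eq_false_iff, beq_eq_false_iff_ne] at h
    rcases List.mem_append.1 hp with hp | hp
    · split_ifs at hp
      · simp_all [cls]; omega
      · simp at hp
    · simp only [cross, List.mem_flatMap, List.mem_map] at hp
      obtain ⟨x, hx, y, -, rfl⟩ := hp
      rw [cls_winKey y.2 x hx]
      exact Ne.symm h.2

theorem mayPair_of_mayRow {c : ℕ} {r : Row} (h : mayRow c r = false) (r' : Row) :
    mayPair c r r' = false := by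
  cases r <;> cases r' <;> simp_all [mayRow, mayPair] <;> omega

theorem part_append (cl : St × St → ℕ) (c : ℕ) (A B : Lin R) :
    part cl c (A ++ B) = part cl c A ++ part cl c B := List.filter_append ..

theorem part_scale (cl : St × St → ℕ) (c : ℕ) (z : R) (A : Lin R) :
    part cl c (scale z A) = scale z (part cl c A) := by
  simp [part, scale, List.filter_map, Function.comp_def]

theorem part_flatMap_filter {α : Type*} (cl : St × St → ℕ) (c : ℕ) (g : α → Bool) (l : List α)
    (f : α → Lin R) (h : ∀ x ∈ l, g x = false → ∀ p ∈ f x, cl p.2 ≠ c) :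
    part cl c ((rfilter g l).flatMap f) = part cl c (l.flatMap f) := by
  rw [rfilter_eq]
  induction l with
  | nil => rfl
  | cons a l ih =>
    rw [List.flatMap_cons, part_append, ← ih fun x hx => h x (by simp [hx])]
    cases hg : g a with
    | true => simp [hg, part_append]
    | false =>
      have he : part cl c (f a) = [] :=
        List.filter_eq_nil_iff.2 fun p hp => by simpa using h a (by simp) hg p hp
      simp [hg, he]

theorem part_flatMap_congr {α : Type*} (cl : St × St → ℕ) (c : ℕ) (l : List α) {f g : α → Lin R}
    (h : ∀ x ∈ l, part cl c (f x) = part cl c (g x)) :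
    part cl c (l.flatMap f) = part cl c (l.flatMap g) := by
  induction l with
  | nil => rfl
  | cons a l ih =>
    rw [List.flatMap_cons, List.flatMap_cons, part_append, part_append, h a (by simp),
      ih fun x hx => h x (by simp [hx])]

section Block

variable [Algebra ℚ R]

/-- The terms of a Gram block that can reach a class. -/
noncomputable def blockLinAt (c : ℕ) (eps : R) (S : ℕ) (B : Block) : Lin R :=
  rflat (rfilter (fun p => mayRow c p.1) B) fun p =>
    rflat (rfilter (fun q => mayPair c p.1 q.1) B) fun q =>
      scale (algebraMap ℚ R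
        ((Psd.dot p.2.2 q.2.2 : ℚ) / ((S : ℚ) ^ 2 * (p.2.1 : ℚ) * (q.2.1 : ℚ))))
        (rowPair eps p.1 q.1)

theorem part_blockLinAt (c : ℕ) (eps : R) (S : ℕ) (B : Block) :
    part cls c (blockLinAt c eps S B) = part cls c (blockLin eps S B) := by
  simp only [blockLinAt, rflat_eq]
  rw [part_flatMap_filter]
  · refine part_flatMap_congr cls c B fun p _ => part_flatMap_filter cls c _ B _ fun q _ hq => ?_
    intro x hx
    simp only [scale, List.mem_map] at hx
    obtain ⟨y, hy, rfl⟩ := hx
    exact cls_rowPair eps c p.1 q.1 hq y hy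
  · intro p _ hp x hx
    simp only [List.mem_flatMap, scale, List.mem_map] at hx
    obtain ⟨q, -, y, hy, rfl⟩ := hx
    exact cls_rowPair eps c p.1 q.1 (mayPair_of_mayRow hp _) y hy

end Block

/-- The classes an invariance relation of pairs and particles can reach. -/
def tag3 (c : ℕ) (x : (ℕ × ℕ × ℕ × ℕ) × ℚ) : Bool :=
  c == 2 * (x.1.1 + x.1.2.1) + 1 || c + 1 == 2 * (x.1.1 + x.1.2.1)

/-- The classes an invariance relation of four particles can reach. -/
def tag4 (c : ℕ) (x : (List ℕ × List ℕ) × ℚ) : Bool :=
  c == 2 * x.1.1.sum + 2 || c == 2 * x.1.1.sum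

/-- The classes a vanishing channel can reach. -/
def tagN (c : ℕ) (x : (ℕ × ℕ × ℕ) × ℚ) : Bool := c == 2 * x.1.1 + 1

/-- The classes of the target terms are as tagged. -/
def targetTagsOk : Bool :=
  tSet.all (fun n => (z1 (0 : ℚ) n).all fun p => cls (p.2, p.2) == 2 * n + 1) &&
  ySet.all (fun n => (z2 (0 : ℚ) n).all fun p => cls (p.2, p.2) == 2 * (n + 2) + 2)

/-- The classes of the other generators are as tagged. -/
def Data.tagsOk (d : Data) : Bool :=
  d.g3.all (fun x => (gauge3 (0 : ℚ) x).all fun p => tag3 (cls p.2) x) &&
  d.g4.all (fun x => (gauge4 (0 : ℚ) x).all fun p => tag4 (cls p.2) x) &&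
  d.null.all fun x => (nullLin (0 : ℚ) x).all fun p => tagN (cls p.2) x

/-- The target terms that can reach a class. -/
noncomputable def targetAt (c : ℕ) (P : Par ℚ) : Lin ℚ :=
  [(P.c * (2 - P.eps), (St.bh 0, St.bh 0))] ++
    ((rfilter (fun n => c == 2 * n + 1) tSet).flatMap fun n =>
      scale (-P.kap n) (cross (z1 P.eps n) (z1 P.eps n))) ++
    ((rfilter (fun n => c == 2 * (n + 2) + 2) ySet).flatMap fun n =>
      scale (P.wy n) (cross (z2 P.eps n) (z2 P.eps n)))

/-- One class of the residual, visiting only the generators that can reach it. -/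
noncomputable def residAt (d : Data) (c : ℕ) : Lin ℚ :=
  rfilter (fun p => decide (cls p.2 = c))
    (targetAt c (parAt (0 : ℚ)) ++ scale (-1) (rflat d.blocks (blockLinAt c (0 : ℚ) d.S)) ++
      rflat (rfilter (tag3 c) d.g3) (gauge3 (0 : ℚ)) ++
      rflat (rfilter (tag4 c) d.g4) (gauge4 (0 : ℚ)) ++
      rflat (rfilter (tagN c) d.null) (nullLin (0 : ℚ)))

theorem cls_cross_scale {A : Comb R} {B : Comb R} {z : R} {m : ℕ}
    (h : ∀ p ∈ A, cls (p.2, p.2) = m) : ∀ p ∈ scale z (cross A B), cls p.2 = m := by
  intro p hp
  simp only [scale, cross, List.mem_map, List.mem_flatMap] at hp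
  obtain ⟨-, ⟨x, hx, y, -, rfl⟩, rfl⟩ := hp
  rw [← h x hx]
  rcases x.2 <;> rfl

/-- `residAt` is the class of the residual. -/
theorem part_residual {d : Data} (ht : targetTagsOk = true) (h : d.tagsOk = true) (c : ℕ) :
    residAt d c = part cls c (residual₀ d) := by
  simp only [targetTagsOk, Data.tagsOk, Bool.and_eq_true, List.all_eq_true, beq_iff_eq] at ht h
  obtain ⟨ht1, ht2⟩ := ht
  obtain ⟨⟨h3, h4⟩, hn⟩ := h
  rw [residAt, rfilter_eq]
  change part cls c _ = _
  simp only [rflat_eq, residual₀, residual, target, targetAt, part_append, part_scale]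
  rw [part_flatMap_filter cls c (fun n => c == 2 * n + 1),
    part_flatMap_filter cls c (fun n => c == 2 * (n + 2) + 2),
    part_flatMap_filter cls c (tag3 c), part_flatMap_filter cls c (tag4 c),
    part_flatMap_filter cls c (tagN c),
    part_flatMap_congr cls c d.blocks fun B _ => part_blockLinAt c (0 : ℚ) d.S B]
  · rfl
  · intro x hx hg p hp e
    have := hn x hx p hp
    simp_all
  · intro x hx hg p hp e
    have := h4 x hx p hp
    simp_all
  · intro x hx hg p hp e
    have := h3 x hx p hp
    simp_all
  · intro n hn' hg p hp e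
    have hc := cls_cross_scale (fun p hp => ht2 n hn' p hp) p hp
    simp_all
  · intro n hn' hg p hp e
    have hc := cls_cross_scale (fun p hp => ht1 n hn' p hp) p hp
    simp_all

end Vale.Agent.P359.Moment
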