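import Vale.Agent.P359.Moment.Basic

/-!
The Gram blocks: `rowPair` is the form of two row operators, so every scaled block `Z Zᵀ` has a
nonnegative value.
-/

open Finset RCLike
open scoped InnerProductSpace

namespace Vale.Agent.P359.Moment

variable {E : Type*} [NormedAddCommGroup E] [InnerProductSpace ℂ E] {eps : ℝ} {ι : Type*}
  [Fintype ι] (S : Sys eps E ι)

/-- The operator of a row. -/
noncomputable def Sys.rowOp : Row → Module.End ℂ E
  | .scal k => Moment.bh eps S.u k
  | .full k a b => S.ud a * (S.u b * Moment.bh eps S.u k)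

lemma eCo_ofReal (rho eps : ℝ) (i : ℕ) :
    Coef.eCo (rho : ℂ) (eps : ℂ) i = ((Coef.eCo rho eps i : ℝ) : ℂ) := by
  simp [Coef.eCo]

lemma nrm_ofReal (rho eps : ℝ) (i : ℕ) :
    Coef.nrm (rho : ℂ) (eps : ℂ) i = ((Coef.nrm rho eps i : ℝ) : ℂ) := by
  simp [Coef.nrm, eCo_ofReal]

lemma rhoJ_ofReal (eps : ℝ) : Coef.rhoJ (eps : ℂ) = ((Coef.rhoJ eps : ℝ) : ℂ) := by
  simp [Coef.rhoJ]

lemma Sys.pform_bh_self (k : ℕ) :
    pform S.χ (Moment.bh eps S.u k) (Moment.bh eps S.u k) =
      Coef.nrm (Coef.rhoJ eps) eps k * S.val (St.bh 0, St.bh 0) := by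
  induction k with
  | zero => simp [Coef.nrm, Sys.val, Sys.op]
  | succ k ih =>
    have h : pform S.χ (Moment.bh eps S.u (k + 1)) (Moment.bh eps S.u (k + 1)) =
        pform S.χ (Moment.bh eps S.u (k + 1))
          (Moment.bh eps S.u k * S.Ep - S.Ep * Moment.bh eps S.u k) := by rw [S.bh_E]
    rw [h, S.inv_sub, S.bh_F, Nat.add_sub_cancel, pform_smul_left, ih, Coef.nrm, Coef.nrm,
      Finset.prod_range_succ]
    ring

lemma Sys.comb_winKey (c : ℝ) (k a b : ℕ) :
    S.comb (winKey c k a b) = (c : ℂ) • (S.u a * (S.u b * Moment.bh eps S.u k)) := by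
  unfold winKey
  split_ifs with h1 h2
  · simp [Sys.comb, Sys.op, mul_assoc]
  · subst h2
    have h : S.u a * S.u a = 0 := by
      have e := S.anti a a
      have e2 : (2 : ℂ) • (S.u a * S.u a) = 0 := by rw [two_smul]; exact add_eq_zero_iff_eq_neg.2 e
      exact (smul_eq_zero.1 e2).resolve_left two_ne_zero
    rw [← mul_assoc, h, zero_mul, smul_zero, S.comb_nil]
  · rw [S.comb_singleton, ← mul_assoc, S.anti a b]
    simp [Sys.op]

/-- The moments of two rows are the form of their operators. -/
lemma Sys.ev_rowPair (r r' : Row) :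
    S.ev (rowPair eps r r') = pform S.χ (S.rowOp r) (S.rowOp r') := by
  cases r with
  | scal k =>
    cases r' with
    | scal l =>
      simp only [rowPair, Sys.rowOp]
      split_ifs with h
      · subst h
        rw [S.ev_singleton, S.pform_bh_self]
      · rw [S.ev_singleton, one_mul]
        rfl
    | full l a b =>
      simp only [rowPair, Sys.rowOp, S.ev_singleton, one_mul]
      rw [pform_adj _ _ _ (S.adj a)]
      rfl
  | full k a b =>
    cases r' with
    | scal l =>
      simp only [rowPair, Sys.rowOp, S.ev_singleton, one_mul]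
      rw [pform_adj' _ _ _ (S.adj a)]
      rfl
    | full l a' b' =>
      simp only [rowPair, Sys.rowOp]
      rw [S.ev_append, S.ev_cross, S.comb_winKey, S.comb_winKey, pform_smul_left, pform_smul_right,
        pform_adj' _ _ _ (S.adj a), ← mul_assoc (S.u a) (S.ud a'),
        eq_sub_of_add_eq (S.mix a a'), sub_mul, pform_sub_right, mul_assoc (S.ud a'),
        pform_adj _ _ _ (S.adj a')]
      split_ifs with h
      · rw [S.ev_singleton, smul_mul_assoc, one_mul,
          pform_smul_right]
        simp only [Sys.val, Sys.op, one_mul]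
        ring
      · rw [S.ev_nil, zero_mul, pform_zero_right]
        ring

lemma list_sum_comm {α : Type*} (l : List α) (t : Finset ℕ) (f : α → ℕ → ℝ) :
    (l.map fun a => ∑ i ∈ t, f a i).sum = ∑ i ∈ t, (l.map fun a => f a i).sum := by
  induction l with
  | nil => simp
  | cons a l ih => simp [ih, Finset.sum_add_distrib]

/-- A block `Z Zᵀ`, scaled by rows, has a nonnegative value. -/
theorem Sys.ev_blockLin_nonneg (s : ℕ) (B : Block) : 0 ≤ S.ev (blockLin eps s B) := by
  let v : Row × ℕ × List ℤ → ℕ → ℝ := fun p i =>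
    (p.2.2.getD i 0 : ℝ) / ((s : ℝ) * (p.2.1 : ℝ))
  let m : ℕ := (B.map fun p => p.2.2.length).sum
  let F : ℕ → Module.End ℂ E := fun i => (B.map fun p => (v p i : ℂ) • S.rowOp p.1).sum
  have key : S.ev (blockLin eps s B) = ∑ i ∈ range m, pform S.χ (F i) (F i) := by
    have hr : ∀ p ∈ B, p.2.2.length ≤ m := fun p hp =>
      List.le_sum_of_mem (List.mem_map.2 ⟨p, hp, rfl⟩)
    have hpair : ∀ p ∈ B, ∀ q : Row × ℕ × List ℤ,
        S.ev (scale (algebraMap ℚ ℝ
          ((Psd.dot p.2.2 q.2.2 : ℚ) / ((s : ℚ) ^ 2 * (p.2.1 : ℚ) * (q.2.1 : ℚ))))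
          (rowPair eps p.1 q.1)) =
        ∑ i ∈ range m, v q i * (v p i * pform S.χ (S.rowOp p.1) (S.rowOp q.1)) := by
      intro p hp q
      rw [S.ev_scale, S.ev_rowPair, Psd.dot_eq m _ _ (hr p hp),
        Fin.sum_univ_eq_sum_range (fun i => p.2.2.getD i 0 * q.2.2.getD i 0) m, eq_ratCast]
      push_cast
      rw [Finset.sum_div, Finset.sum_mul]
      exact Finset.sum_congr rfl fun i _ => by simp only [v]; ring
    calc S.ev (blockLin eps s B)
        = (B.map fun p => (B.map fun q => ∑ i ∈ range m,
            v q i * (v p i * pform S.χ (S.rowOp p.1) (S.rowOp q.1))).sum).sum := by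
          rw [blockLin, S.ev_flatMap]
          congr 1
          refine List.map_congr_left fun p hp => ?_
          rw [S.ev_flatMap]
          congr 1
          exact List.map_congr_left fun q _ => hpair p hp q
      _ = ∑ i ∈ range m, pform S.χ (F i) (F i) := by
          simp only [list_sum_comm]
          refine Finset.sum_congr rfl fun i _ => ?_
          simp only [F]
          rw [pform_list_sum_left]
          simp only [pform_list_sum_right, List.map_map, Function.comp_def,
            pform_smul_left, pform_smul_right]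
  rw [key]
  exact Finset.sum_nonneg fun i _ => pform_self_nonneg _ _

/-- All blocks together. -/
theorem Sys.ev_blocks_nonneg (s : ℕ) (Bs : List Block) :
    0 ≤ S.ev (Bs.flatMap (blockLin eps s)) := by
  rw [S.ev_flatMap]
  refine List.sum_nonneg ?_
  simp only [List.mem_map]
  rintro x ⟨B, _, rfl⟩
  exact S.ev_blockLin_nonneg s B

end Vale.Agent.P359.Moment
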