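import Vale.Agent.P359.Eigen
import Vale.Agent.P359.Moment.SysFacts

/-!
The moment system of an invariant family on the sphere with flux `Q`.
-/

open Finset RCLike
open scoped InnerProductSpace

namespace Vale.Agent.P359.Moment

/-- The scaled creators, zero beyond the flux. -/
noncomputable def ud (Q a : ℕ) : Module.End ℂ (FockQ Q) :=
  ∑ x : Fin (Q + 1), ((if (x : ℕ) = a then sc Q a else 0 : ℝ) : ℂ) • (carQ Q).cre x

theorem ud_adj (Q a : ℕ) (x y : FockQ Q) : ⟪ud Q a x, y⟫_ℂ = ⟪x, P359.u Q a y⟫_ℂ := by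
  simp only [ud, P359.u, LinearMap.sum_apply, LinearMap.smul_apply, sum_inner, inner_sum,
    inner_smul_left, inner_smul_right, Complex.conj_ofReal, (carQ Q).adj]

theorem u_anti (Q a b : ℕ) : P359.u Q a * P359.u Q b = -(P359.u Q b * P359.u Q a) := by
  simp only [P359.u, Finset.sum_mul, ← Finset.sum_neg_distrib]
  simp only [Finset.mul_sum, ← Finset.sum_neg_distrib, smul_mul_smul_comm]
  rw [Finset.sum_comm]
  refine sum_congr rfl fun x _ => sum_congr rfl fun y _ => ?_
  rw [(carQ Q).anti, smul_neg, mul_comm]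

theorem u_mix {Q : ℕ} (hQ : 0 < Q) (a b : ℕ) :
    P359.u Q a * ud Q b + ud Q b * P359.u Q a =
      if a = b then ((Coef.nrm 1 (epsQ Q) a : ℝ) : ℂ) • 1 else 0 := by
  have h0 : ∀ a, Q < a → Coef.nrm (1 : ℝ) (epsQ Q) a = 0 := fun a ha => by
    simp [nrm_one_eq Q a hQ, Nat.choose_eq_zero_of_lt ha]
  rcases Nat.lt_or_ge Q a with ha | ha
  · rw [u_of_gt ha, h0 a ha]
    simp
  have hb : ud Q b = if h : b < Q + 1 then (sc Q b : ℂ) • (carQ Q).cre ⟨b, h⟩ else 0 := by
    split_ifs with h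
    · rw [ud, Finset.sum_eq_single ⟨b, h⟩]
      · simp
      · intro x _ hx
        rw [if_neg fun e => hx (Fin.ext e)]
        simp
      · simp
    · exact sum_eq_zero fun x _ => by rw [if_neg (by omega)]; simp
  rw [u_of_le ha, hb]
  split_ifs with h he he
  · subst he
    rw [smul_mul_smul_comm, smul_mul_smul_comm, ← smul_add, (carQ Q).mix, if_pos rfl,
      ← Complex.ofReal_mul, sc, Real.mul_self_sqrt]
    rw [nrm_one_eq Q a hQ]
    positivity
  · rw [smul_mul_smul_comm, smul_mul_smul_comm, mul_comm ((sc Q b : ℝ) : ℂ), ← smul_add,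
      (carQ Q).mix, if_neg, smul_zero]
    exact fun e => he (congrArg Fin.val e)
  · omega
  · simp

theorem pinvariant_Pf {Q r : ℕ} {χ : Fin r → FockQ Q}
    (h : Ladder.IsInvariant (Rb Q) (Lb Q) (Pf χ)) : Slack.PInvariant χ (Eop Q) (Fop Q) :=
  fun X Y => congrArg Complex.re (h.adj' X Y).symm

/-- The moment system of an invariant family. -/
noncomputable def sysQ {Q r : ℕ} (hQ : 0 < Q) (χ : Fin r → FockQ Q)
    (h : Ladder.IsInvariant (Rb Q) (Lb Q) (Pf χ)) : Sys (epsQ Q) (FockQ Q) (Fin r) where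
  u := P359.u Q
  ud := ud Q
  Ep := Eop Q
  Fm := Fop Q
  χ := χ
  adj := ud_adj Q
  anti := u_anti Q
  mix := u_mix hQ
  ladder := u_ladder hQ
  inv := pinvariant_Pf h

end Vale.Agent.P359.Moment
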