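import Mathlib
import Vale.Agent.P359.GapCriterion
import Vale.Agent.P359.UniformCert
import Vale.Agent.P359.KapPair
import Vale.Agent.P359.Moment.Chain

/-!
The channel formula for the commutator form of an invariant system on Fock space, and its bound by
the channels kept in the certificate plus a tail of one twentieth of the energy.
-/

open Finset RCLike
open scoped InnerProductSpace

namespace Vale.Agent.P359.Moment.Kap

open Coef KapL

variable {Q : ℕ} {ι : Type*} [Fintype ι]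

theorem sphere_epsQ (hQ : 2 ≤ Q) : Sphere Q (epsQ Q) := by
  have : (0 : ℝ) < Q := by exact_mod_cast (show 0 < Q by omega)
  refine ⟨hQ, ?_, ?_⟩
  · rw [epsQ]; positivity
  · rw [epsQ, mul_one_div, div_self this.ne']

theorem u_apply (a : Fin (Q + 1)) :
    P359.u Q a = (Real.sqrt (nrm 1 (epsQ Q) a) : ℂ) • (carQ Q).ann a := by
  rw [u_of_le (Nat.le_of_lt_succ a.2)]
  rfl

theorem norm_u_le (hQ : 2 ≤ Q) {q : ℕ} (hq : q ≤ Q) (v : FockQ Q) :
    ‖P359.u Q q v‖ ^ 2 ≤ nrm 1 (epsQ Q) q * ‖v‖ ^ 2 := by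
  rw [u_of_le hq, LinearMap.smul_apply, norm_smul, Complex.norm_real, sc,
    Real.norm_eq_abs, mul_pow, sq_abs, Real.sq_sqrt ((sphere_epsQ hQ).nrm_one_pos hq).le]
  exact mul_le_mul_of_nonneg_left (pow_le_pow_left₀ (norm_nonneg _) ((carQ Q).norm_ann_le _ v) 2)
    ((sphere_epsQ hQ).nrm_one_pos hq).le

/-- The scaled pair annihilators vanish beyond the pair space. -/
theorem bh_top (hQ : 2 ≤ Q) {k : ℕ} (hk : 2 * Q - 1 ≤ k) : bh (epsQ Q) (P359.u Q) k = 0 :=
  P359.Bh_top (by omega) hk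

/-- The pair annihilators in the scaled bases. -/
theorem pair_eq_bh (hQ : 2 ≤ Q) (m : P359.Chan Q) :
    (carQ Q).pair (coef Q) m =
      ((1 / (2 * Real.sqrt (nrm (rhoJ (epsQ Q)) (epsQ Q) m)) : ℝ) : ℂ) •
        bh (epsQ Q) (P359.u Q) m := by
  have hS := sphere_epsQ hQ
  set g : ℕ → ℕ → Module.End ℂ (FockQ Q) := fun a b =>
    if a + b = (m : ℕ) + 1 then
      ((pc1 (epsQ Q) m a / (2 * Real.sqrt (nrm (rhoJ (epsQ Q)) (epsQ Q) m)) : ℝ) : ℂ) •
        (P359.u Q b * P359.u Q a) else 0 with hg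
  have h1 : (carQ Q).pair (coef Q) m = ∑ a ∈ range (Q + 1), ∑ b ∈ range (Q + 1), g a b := by
    rw [Car.pair, sum_range]
    refine sum_congr rfl fun a _ => ?_
    rw [sum_range]
    refine sum_congr rfl fun b _ => ?_
    rw [coef_eq hS]
    simp only [hg]
    split_ifs
    · rw [u_apply, u_apply, smul_mul_smul_comm, smul_smul, ← Complex.ofReal_mul,
        ← Complex.ofReal_mul]
      refine congrArg (fun t : ℝ => (t : ℂ) • ((carQ Q).ann b * (carQ Q).ann a)) ?_
      simp only [Algebra.algebraMap_self, RingHom.id_apply]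
      ring
    · simp
  have h2 : ∀ a ∈ range (Q + 1), ∑ b ∈ range (Q + 1), g a b =
      if a ≤ (m : ℕ) + 1 then g a ((m : ℕ) + 1 - a) else 0 := by
    intro a _
    split_ifs with ha
    · refine sum_eq_single ((m : ℕ) + 1 - a) (fun b _ hb => ?_) fun hb => ?_
      · simp only [hg]; rw [if_neg (by omega)]
      · simp only [hg, mem_range, not_lt] at hb ⊢
        rw [u_of_gt (show Q < (m : ℕ) + 1 - a by omega)]
        simp
    · refine sum_eq_zero fun b _ => ?_
      simp only [hg]; rw [if_neg (by omega)]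
  rw [h1, sum_congr rfl h2, ← sum_filter, bh_eq, smul_sum]
  refine (sum_subset (fun a ha => ?_) fun a ha hna => ?_).trans (sum_congr rfl fun a ha => ?_)
  · simp only [mem_filter, mem_range] at ha ⊢; omega
  · simp only [mem_filter, mem_range] at ha hna
    simp only [hg]
    rw [u_of_gt (show Q < a by omega)]
    simp
  · simp only [mem_range] at ha
    simp only [hg]
    rw [if_pos (by omega), smul_smul, ← Complex.ofReal_mul]
    simp only [pc1]
    refine congrArg (fun t : ℝ => (t : ℂ) • (P359.u Q ((m : ℕ) + 1 - a) * P359.u Q a)) ?_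
    ring

/-- The descendant `(n, M)` of a pair and a particle. -/
noncomputable def zOp (eps : ℝ) (u : ℕ → Module.End ℂ (FockQ Q)) (n M : ℕ) :
    Module.End ℂ (FockQ Q) :=
  Ladder.comp ℂ (rhoJ eps) 1 eps n (bh eps u) u M

/-- One normalised channel vector applied to a pair family. -/
theorem sum_dNrm (hQ : 2 ≤ Q) {n M : ℕ} (x : FockQ Q) :
    ∑ m : P359.Chan Q, ∑ y : Fin (Q + 1), (dNrm Q (epsQ Q) n M m y : ℂ) •
        (carQ Q).ann y ((carQ Q).pair (coef Q) m x) =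
      ((1 / (2 * Real.sqrt (chanN (epsQ Q) n (n + M))) : ℝ) : ℂ) •
        zOp (epsQ Q) (P359.u Q) n M x := by
  have hS := sphere_epsQ hQ
  set g : ℕ → ℕ → FockQ Q := fun i y => if i + y = n + M then
    ((desc (rhoJ (epsQ Q)) 1 (epsQ Q) n M i /
      (2 * Real.sqrt (chanN (epsQ Q) n (n + M))) : ℝ) : ℂ) •
        P359.u Q y (bh (epsQ Q) (P359.u Q) i x) else 0 with hg
  have h1 : ∑ m : P359.Chan Q, ∑ y : Fin (Q + 1), (dNrm Q (epsQ Q) n M m y : ℂ) •
      (carQ Q).ann y ((carQ Q).pair (coef Q) m x) =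
      ∑ i ∈ range (2 * Q - 1), ∑ y ∈ range (Q + 1), g i y := by
    rw [sum_range]
    refine sum_congr rfl fun m _ => ?_
    rw [sum_range]
    refine sum_congr rfl fun y _ => ?_
    simp only [hg, dNrm, dVec]
    split_ifs
    · rw [pair_eq_bh hQ, u_apply]
      simp only [LinearMap.smul_apply, map_smul, smul_smul, ← Complex.ofReal_mul]
      congr 2
      have := (Real.sqrt_pos.2 (hS.nrm_J_pos (show (m : ℕ) ≤ 2 * Q - 2 by
        have := m.2; omega))).ne'
      field_simp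
    · simp
  have h2 : ∀ i ∈ range (2 * Q - 1), ∑ y ∈ range (Q + 1), g i y =
      if i ≤ n + M then g i (n + M - i) else 0 := by
    intro i _
    split_ifs with hi
    · refine sum_eq_single (n + M - i) (fun y _ hy => ?_) fun hy => ?_
      · simp only [hg]; rw [if_neg (by omega)]
      · simp only [hg, mem_range, not_lt] at hy ⊢
        rw [u_of_gt (show Q < n + M - i by omega)]
        simp
    · refine sum_eq_zero fun y _ => ?_
      simp only [hg]; rw [if_neg (by omega)]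
  rw [h1, sum_congr rfl h2, ← sum_filter, zOp, Ladder.comp, LinearMap.sum_apply, smul_sum]
  refine (sum_subset (fun i hi => ?_) fun i hi hni => ?_).trans (sum_congr rfl fun i hi => ?_)
  · simp only [mem_filter, mem_range] at hi ⊢; omega
  · simp only [mem_filter, mem_range] at hi hni
    simp only [hg]
    rw [bh_top hQ (show 2 * Q - 1 ≤ i by omega)]
    simp
  · simp only [mem_range] at hi
    simp only [hg]
    rw [if_pos (by omega)]
    simp only [LinearMap.smul_apply, Module.End.mul_apply, smul_smul, ← Complex.ofReal_mul,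
      Complex.coe_algebraMap]
    congr 2
    ring

theorem sum_swap6 {α β γ δ R : Type*} [Fintype α] [Fintype β] [Fintype γ] [Fintype δ]
    [AddCommMonoid R] (s : Finset ℕ) (t : ℕ → Finset ℕ) (f : α → β → γ → δ → ℕ → ℕ → R) :
    ∑ a, ∑ b, ∑ c, ∑ d, ∑ n ∈ s, ∑ M ∈ t n, f a b c d n M =
      ∑ n ∈ s, ∑ M ∈ t n, ∑ a, ∑ b, ∑ c, ∑ d, f a b c d n M := by
  rw [sum_congr rfl fun a _ => sum_congr rfl fun b _ => sum_congr rfl fun c _ => sum_comm,
    sum_congr rfl fun a _ => sum_congr rfl fun b _ => sum_comm,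
    sum_congr rfl fun a _ => sum_comm, sum_comm]
  refine sum_congr rfl fun n _ => ?_
  rw [sum_congr rfl fun a _ => sum_congr rfl fun b _ => sum_congr rfl fun c _ => sum_comm,
    sum_congr rfl fun a _ => sum_congr rfl fun b _ => sum_comm,
    sum_congr rfl fun a _ => sum_comm, sum_comm]

/-- The commutator form on one vector, channel by channel. -/
theorem wForm_channels (hQ : 2 ≤ Q) (x : FockQ Q) :
    wForm (Kk (coef Q)) (pairFam x) = ∑ n ∈ range (Q + 1),
      ∑ M ∈ range (2 * Q - 2 + Q - 2 * n + 1),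
        kappaS (epsQ Q) n *
          (‖zOp (epsQ Q) (P359.u Q) n M x‖ ^ 2 / (4 * chanN (epsQ Q) n (n + M))) := by
  have hS := sphere_epsQ hQ
  have key : ∑ m : P359.Chan Q, ∑ m' : P359.Chan Q, ∑ y : Fin (Q + 1), ∑ b : Fin (Q + 1),
      (Kk (coef Q) m m' y b : ℂ) * ⟪(carQ Q).ann y (pairFam x m), (carQ Q).ann b (pairFam x m')⟫_ℂ =
      ∑ n ∈ range (Q + 1), ∑ M ∈ range (2 * Q - 2 + Q - 2 * n + 1),
        (kappaS (epsQ Q) n : ℂ) *
          ⟪∑ m : P359.Chan Q, ∑ y : Fin (Q + 1), (dNrm Q (epsQ Q) n M m y : ℂ) •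
              (carQ Q).ann y (pairFam x m),
            ∑ m : P359.Chan Q, ∑ y : Fin (Q + 1), (dNrm Q (epsQ Q) n M m y : ℂ) •
              (carQ Q).ann y (pairFam x m)⟫_ℂ := by
    have hK : ∀ (m m' : P359.Chan Q) (y b : Fin (Q + 1)), (Kk (coef Q) m m' y b : ℂ) *
        ⟪(carQ Q).ann y (pairFam x m), (carQ Q).ann b (pairFam x m')⟫_ℂ =
        ∑ n ∈ range (Q + 1), ∑ M ∈ range (2 * Q - 2 + Q - 2 * n + 1),
          (kappaS (epsQ Q) n : ℂ) *
            ⟪(dNrm Q (epsQ Q) n M m y : ℂ) • (carQ Q).ann y (pairFam x m),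
              (dNrm Q (epsQ Q) n M m' b : ℂ) • (carQ Q).ann b (pairFam x m')⟫_ℂ := by
      intro m m' y b
      rw [Kk_spectral hS]
      simp only [Complex.ofReal_sum, Complex.ofReal_mul, sum_mul, inner_smul_left,
        inner_smul_right, Complex.conj_ofReal]
      exact sum_congr rfl fun n _ => sum_congr rfl fun M _ => by ring
    simp only [hK, sum_inner, inner_sum, mul_sum]
    rw [sum_swap6]
    refine sum_congr rfl fun n _ => sum_congr rfl fun M _ => ?_
    symm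
    rw [sum_congr rfl fun b _ => sum_comm, sum_comm]
    refine sum_congr rfl fun m _ => sum_congr rfl fun m' _ => ?_
    rw [sum_comm]
  rw [wForm, key, map_sum]
  refine sum_congr rfl fun n hn => ?_
  rw [map_sum]
  refine sum_congr rfl fun M hM => ?_
  simp only [pairFam]
  rw [sum_dNrm hQ]
  simp only [RCLike.re_to_complex, Complex.re_ofReal_mul]
  rw [← RCLike.re_to_complex]
  rw [inner_self_eq_norm_sq, norm_smul, Complex.norm_real,
    Real.norm_eq_abs, mul_pow, sq_abs, div_pow, one_pow, mul_pow, Real.sq_sqrt]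
  · ring
  · refine (chanN_pos hS ?_ ?_).le <;>
      (simp only [mem_range, Ladder.topComp] at hn hM ⊢; omega)

variable (S : Sys (epsQ Q) (FockQ Q) ι)

theorem sys_z_ladder (n : ℕ) :
    Ladder.IsLadder (Ladder.brk (𝕜 := ℂ) S.Ep) (Ladder.brk (𝕜 := ℂ) S.Fm) (rho3 (epsQ Q) n)
      (epsQ Q) (fun M => zOp (epsQ Q) S.u n M) :=
  Ladder.comp_ladder (Ladder.brk_mul _) (Ladder.brk_mul _) S.bh_ladder S.ladder n

theorem sum_norm_sq (X : Module.End ℂ (FockQ Q)) :
    ∑ i, ‖X (S.χ i)‖ ^ 2 = pform S.χ X X := (Slack.pform_self X).symm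

theorem sum_bh_sq (k : ℕ) :
    ∑ i, ‖bh (epsQ Q) S.u k (S.χ i)‖ ^ 2 =
      nrm (rhoJ (epsQ Q)) (epsQ Q) k * pform S.χ (bh (epsQ Q) S.u 0) (bh (epsQ Q) S.u 0) := by
  rw [sum_norm_sq]
  exact Slack.pform_ladder S.inv S.bh_ladder k

/-- The energy of an invariant system. -/
theorem phiH_eq (hQ : 2 ≤ Q) (hu : S.u = P359.u Q) :
    ∑ i, ∑ m, ‖pairFam (S.χ i) m‖ ^ 2 =
      (2 * (Q : ℝ) - 1) / 4 * pform S.χ (bh (epsQ Q) S.u 0) (bh (epsQ Q) S.u 0) := by
  have hS := sphere_epsQ hQ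
  rw [sum_comm]
  have e : ∀ m : P359.Chan Q, ∑ i, ‖pairFam (S.χ i) m‖ ^ 2 =
      1 / 4 * pform S.χ (bh (epsQ Q) S.u 0) (bh (epsQ Q) S.u 0) := by
    intro m
    have hp := hS.nrm_J_pos (show (m : ℕ) ≤ 2 * Q - 2 by have := m.2; omega)
    simp only [pairFam, pair_eq_bh hQ, LinearMap.smul_apply, norm_smul, Complex.norm_real,
      Real.norm_eq_abs, mul_pow, sq_abs, div_pow, one_pow, Real.sq_sqrt hp.le, ← hu, ← mul_sum,
      sum_bh_sq]
    field_simp
    ring
  rw [sum_congr rfl fun m _ => e m, sum_const, card_univ, Fintype.card_fin, nsmul_eq_mul,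
    Nat.cast_sub (show 1 ≤ 2 * Q by omega)]
  push_cast
  ring

/-- The highest-weight operator of channel `n`. -/
noncomputable def Y1 (n : ℕ) : ℝ :=
  pform S.χ (zOp (epsQ Q) S.u n 0) (zOp (epsQ Q) S.u n 0)

/-- The commutator form of an invariant system, channel by channel. -/
theorem phiT_eq (hQ : 2 ≤ Q) (hu : S.u = P359.u Q) :
    ∑ i, wForm (Kk (coef Q)) (pairFam (S.χ i)) =
      (Q : ℝ) / 4 * ∑ n ∈ range (Q + 1), kapW (epsQ Q) n * Y1 S n := by
  have hS := sphere_epsQ hQ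
  simp only [wForm_channels hQ, ← hu]
  rw [sum_comm, mul_sum]
  refine sum_congr rfl fun n hn => ?_
  have hn' : n ≤ Q := Nat.le_of_lt_succ (mem_range.1 hn)
  rw [sum_comm]
  have e : ∀ M ∈ range (2 * Q - 2 + Q - 2 * n + 1), ∑ i, kappaS (epsQ Q) n *
      (‖zOp (epsQ Q) S.u n M (S.χ i)‖ ^ 2 / (4 * chanN (epsQ Q) n (n + M))) =
      kappaS (epsQ Q) n * Y1 S n / (4 * coNrm (epsQ Q) n) := by
    intro M hM
    have hl : ∑ i, ‖zOp (epsQ Q) S.u n M (S.χ i)‖ ^ 2 =
        nrm (rho3 (epsQ Q) n) (epsQ Q) M * Y1 S n := by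
      rw [sum_norm_sq]
      exact Slack.pform_ladder S.inv (sys_z_ladder S n) M
    have hG : 0 < chanN (epsQ Q) n (n + M) :=
      chanN_pos hS (by simp only [mem_range] at hM; omega)
        (by simp only [mem_range, Ladder.topComp] at hM ⊢; omega)
    rw [← mul_sum, ← sum_div, hl, chanN, show n + M - n = M by omega]
    rw [chanN, show n + M - n = M by omega] at hG
    have h1 := (mul_ne_zero_iff.1 hG.ne').1
    have h2 := (mul_ne_zero_iff.1 hG.ne').2
    field_simp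
  rw [sum_congr rfl e, sum_const, card_range, nsmul_eq_mul]
  have hq : (0 : ℝ) < Q := by exact_mod_cast (show 0 < Q by omega)
  have hc : ((2 * Q - 2 + Q - 2 * n + 1 : ℕ) : ℝ) = (Q : ℝ) * (3 - (1 + 2 * (n : ℝ)) * epsQ Q) := by
    rw [epsQ]
    push_cast [Nat.cast_sub (show 2 * n ≤ 2 * Q - 2 + Q by omega),
      Nat.cast_sub (show 2 ≤ 2 * Q by omega)]
    field_simp
    ring
  rw [hc, kapW, kappaS]
  ring

/-- The highest-weight operator is the combination of the certificate. -/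
theorem zOp_zero_eq_comb (n : ℕ) :
    zOp (epsQ Q) S.u n 0 = S.comb (z1 (epsQ Q) n) := by
  simp only [zOp, Ladder.comp, Sys.comb, z1, List.map_map, Nat.add_zero]
  rfl

theorem kappaS_mul_eq {n : ℕ} {y : ℝ} (_hn : n ≤ Q) : kapW (epsQ Q) n * y = kappaS (epsQ Q) n *
    (3 - (1 + 2 * (n : ℝ)) * (1 / (Q : ℝ))) * (y / coNrm (epsQ Q) n) := by
  rw [kapW, kappaS, epsQ]
  ring

/-- Channels from fifteen on cost at most `49 / 500` of `τ`. -/
theorem tail_le (y : ℕ → ℝ) {τ : ℝ} (hτ : 0 ≤ τ) (h0 : ∀ n, 15 ≤ n → n ≤ Q → 0 ≤ y n)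
    (h1 : ∀ n, 15 ≤ n → n ≤ Q → y n ≤ ((n : ℝ) + 1) * τ) :
    ∑ n ∈ Ico 15 (Q + 1), kappaS (1 / Q) n * (3 - (1 + 2 * (n : ℝ)) * (1 / Q)) * y n ≤
      49 / 500 * τ := by
  have hstep : ∀ n ∈ Ico 15 (Q + 1),
      kappaS (1 / Q) n * (3 - (1 + 2 * (n : ℝ)) * (1 / Q)) * y n ≤
        if Odd n then 9 * (n : ℝ) * ((n : ℝ) + 1) / 2 ^ n * τ else 0 := by
    intro n hn
    obtain ⟨hn1, hn2⟩ := mem_Ico.1 hn
    have hnQ : n ≤ Q := by omega
    have hQ : (15 : ℝ) ≤ Q := by exact_mod_cast hn1.trans hnQ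
    have hnQ' : (n : ℝ) * (1 / Q) ≤ 1 := by
      rw [mul_one_div, div_le_one (by linarith)]; exact_mod_cast hnQ
    have he : (0 : ℝ) ≤ 1 / Q := by positivity
    have he1 : (1 : ℝ) / Q ≤ 1 := by rw [div_le_one (by linarith)]; linarith
    have hw : 0 ≤ 3 - (1 + 2 * (n : ℝ)) * (1 / Q) := by linarith
    have hw3 : 3 - (1 + 2 * (n : ℝ)) * (1 / Q) ≤ 3 := by
      linarith [mul_nonneg he (Nat.cast_nonneg (α := ℝ) n)]
    obtain ⟨ke, ko⟩ := kappaS_bounds (show 5 ≤ n by omega) hnQ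
    have hy := h0 n hn1 hnQ
    split_ifs with hodd
    · calc kappaS (1 / Q) n * (3 - (1 + 2 * (n : ℝ)) * (1 / Q)) * y n
          ≤ 3 * (n : ℝ) / 2 ^ n * 3 * (((n : ℝ) + 1) * τ) :=
            (mul_le_mul_of_nonneg_right (mul_le_mul_of_nonneg_right (ko hodd) hw) hy).trans
              (mul_le_mul (mul_le_mul_of_nonneg_left hw3 (by positivity)) (h1 n hn1 hnQ) hy
                (by positivity))
        _ = _ := by ring
    · exact mul_nonpos_iff.2 (Or.inr ⟨mul_nonpos_iff.2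
        (Or.inr ⟨ke (Nat.not_odd_iff_even.1 hodd), hw⟩), hy⟩)
  refine (sum_le_sum hstep).trans ?_
  have hmono : ∀ K : ℕ, (∑ n ∈ Ico 15 (15 + 2 * K),
      if Odd n then 9 * (n : ℝ) * ((n : ℝ) + 1) / 2 ^ n * τ else 0) ≤
        2 * (tailT 15 - tailT (15 + 2 * K)) * τ := by
    intro K
    induction K with
    | zero => simp
    | succ K ih =>
      rw [show 15 + 2 * (K + 1) = 15 + 2 * K + 1 + 1 by ring, sum_Ico_succ_top (by omega),
        sum_Ico_succ_top (by omega), if_pos ⟨7 + K, by ring⟩,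
        if_neg (Nat.not_odd_iff_even.2 ⟨8 + K, by ring⟩), add_zero]
      have : 9 * ((15 + 2 * K : ℕ) : ℝ) * (((15 + 2 * K : ℕ) : ℝ) + 1) / 2 ^ (15 + 2 * K) =
          2 * (tailT (15 + 2 * K) - tailT (15 + 2 * K + 1 + 1)) := by
        simp only [tailT, pow_add]
        push_cast
        field_simp
        ring
      rw [this]
      linarith
  refine le_trans (sum_le_sum_of_subset_of_nonneg (t := Ico 15 (15 + 2 * (Q + 1))) ?_ ?_)
    ((hmono (Q + 1)).trans ?_)
  · exact fun n hn => by simp only [mem_Ico] at hn ⊢; omega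
  · intro n _ _; split_ifs <;> positivity
  · have h3 : tailT 15 ≤ 49 / 1000 := by unfold tailT; norm_num
    have h4 : 0 ≤ tailT (15 + 2 * (Q + 1)) := by unfold tailT; positivity
    exact mul_le_mul_of_nonneg_right (by linarith) hτ

/-- The vanishing channels. -/
theorem Y1_null {n : ℕ} (hn : n = 0 ∨ n = 1 ∨ n = 3) : Y1 S n = 0 := by
  suffices h : zOp (epsQ Q) S.u n 0 = 0 by simp [Y1, h, pform, Slack.pform]
  set u := S.u with hu
  have hanti : ∀ a b, u a * u b = -(u b * u a) := S.anti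
  have hsq : ∀ a, u a * u a = 0 := fun a => by
    have h2 : (2 : ℂ) • (u a * u a) = 0 := by
      rw [two_smul]; nth_rw 2 [hanti a a]; exact add_neg_cancel _
    exact (smul_eq_zero.1 h2).resolve_left two_ne_zero
  have hp : ∀ k i, desc (1 : ℝ) 1 (epsQ Q) 1 k i =
      ((k + 1).choose i : ℝ) * ((k : ℝ) + 1 - 2 * i) / ((k : ℝ) + 1) := fun k i => by
    rw [eq_div_iff (by positivity), ← pc1_eq (epsQ Q) k i, pc1]; ring
  have e0 : bh (epsQ Q) u 0 = (-2 : ℂ) • (u 0 * u 1) := by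
    rw [bh_eq]
    simp [sum_range_succ, hp, Nat.choose, hanti 1 0]
    module
  have e1 : bh (epsQ Q) u 1 = (-2 : ℂ) • (u 0 * u 2) := by
    rw [bh_eq]
    simp [sum_range_succ, hp, Nat.choose, hanti 2 0]
    module
  have e2 : bh (epsQ Q) u 2 = (-2 : ℂ) • (u 0 * u 3) + (-2 : ℂ) • (u 1 * u 2) := by
    rw [bh_eq]
    simp [sum_range_succ, hp, Nat.choose, hanti 3 0, hanti 2 1]
    norm_num
    module
  have e3 : bh (epsQ Q) u 3 = (-2 : ℂ) • (u 0 * u 4) + (-4 : ℂ) • (u 1 * u 3) := by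
    rw [bh_eq]
    simp [sum_range_succ, hp, Nat.choose, hanti 4 0, hanti 3 1]
    norm_num
    module
  have hz : ∀ n, zOp (epsQ Q) u n 0 = ∑ i ∈ range (n + 1),
      ((desc (rhoJ (epsQ Q)) 1 (epsQ Q) n 0 i : ℝ) : ℂ) • (u (n - i) * bh (epsQ Q) u i) :=
    fun n => rfl
  rcases hn with rfl | rfl | rfl <;> rw [hz]
  · simp only [sum_range_succ, range_zero, sum_empty, zero_add, Nat.sub_zero,
      e0, mul_smul_comm, ← mul_assoc, hsq, zero_mul, smul_zero]
  · simp only [sum_range_succ, range_zero, sum_empty, zero_add, Nat.sub_zero,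
      Nat.sub_self, e0, e1, mul_smul_comm]
    rw [← mul_assoc, ← mul_assoc, hanti 1 0, neg_mul, mul_assoc, hsq, hsq]
    simp
  · have k0 : u 3 * (u 0 * u 1) = u 0 * u 1 * u 3 := by
      rw [← mul_assoc, hanti 3 0, neg_mul, mul_assoc, hanti 3 1, mul_neg, neg_neg, mul_assoc]
    have k1 : u 2 * (u 0 * u 2) = 0 := by
      rw [← mul_assoc, hanti 2 0, neg_mul, mul_assoc, hsq, mul_zero, neg_zero]
    have k2 : u 1 * (u 0 * u 3) = -(u 0 * u 1 * u 3) := by
      rw [← mul_assoc, hanti 1 0, neg_mul]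
    have k2' : u 1 * (u 1 * u 2) = 0 := by rw [← mul_assoc, hsq, zero_mul]
    have k3 : u 0 * (u 0 * u 4) = 0 := by rw [← mul_assoc, hsq, zero_mul]
    have k3' : u 0 * (u 1 * u 3) = u 0 * u 1 * u 3 := by rw [mul_assoc]
    simp only [sum_range_succ, range_zero, sum_empty, zero_add,
      Nat.sub_zero, Nat.reduceSub, e0, e1, e2, e3, mul_add, mul_smul_comm, k0, k1, k2, k2', k3,
      k3', smul_zero, add_zero, zero_add, smul_neg, smul_smul, ← neg_smul, ← add_smul,
      Ladder.desc_zero]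
    refine smul_eq_zero_of_left ?_ _
    simp [hw, rhoJ, prod_range_succ, Nat.choose]
    ring

/-- (T): the commutator form is bounded by the channels of the certificate and a twentieth of
the energy. -/
theorem phiT_le (hQ : 25 ≤ Q) (hu : S.u = P359.u Q) :
    ∑ i, wForm (Kk (coef Q)) (pairFam (S.χ i)) ≤
      (Q : ℝ) / 4 * (tSet.map fun n => kapW (epsQ Q) n *
        pform S.χ (S.comb (z1 (epsQ Q) n)) (S.comb (z1 (epsQ Q) n))).sum +
      1 / 20 * ∑ i, ∑ m, ‖pairFam (S.χ i) m‖ ^ 2 := by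
  have hQ2 : 2 ≤ Q := by omega
  have hS := sphere_epsQ hQ2
  set τ := pform S.χ (bh (epsQ Q) S.u 0) (bh (epsQ Q) S.u 0) with hτdef
  have hτ : 0 ≤ τ := Slack.pform_self_nonneg _
  rw [phiT_eq S hQ2 hu, phiH_eq S hQ2 hu, ← hτdef]
  have hY0 : ∀ n, 0 ≤ Y1 S n := fun n => Slack.pform_self_nonneg _
  have hco : ∀ n, n ≤ Q → 0 < coNrm (epsQ Q) n := fun n hn => by
    have h := chanN_pos hS (n := n) (T := n) (by omega) (by simp only [Ladder.topComp]; omega)
    rwa [chanN, Nat.sub_self, show nrm (rho3 (epsQ Q) n) (epsQ Q) 0 = 1 by simp [nrm],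
      mul_one] at h
  have hY : ∀ n, n ≤ Q → Y1 S n ≤ coNrm (epsQ Q) n * (((n : ℝ) + 1) * τ) := fun n hn => by
    refine le_trans (le_of_eq ?_) (channel_moment_le (𝕜 := ℂ) S.χ S.u (bh (epsQ Q) S.u)
      (epsQ Q) τ n (fun q hq v => by rw [hu]; exact norm_u_le hQ2 (by omega) v)
      (fun q hq => (hS.nrm_one_pos (by omega)).le)
      (fun i hi => (hS.nrm_J_pos (by omega)).le) hτ
      (fun i hi => (sum_bh_sq S i).le))
    rw [Y1, ← sum_norm_sq]
    refine sum_congr rfl fun i _ => ?_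
    simp [zOp, Ladder.comp, co, LinearMap.sum_apply]
  have hsplit : ∑ n ∈ range (Q + 1), kapW (epsQ Q) n * Y1 S n =
      (∑ n ∈ range 15, kapW (epsQ Q) n * Y1 S n) +
        ∑ n ∈ Ico 15 (Q + 1), kapW (epsQ Q) n * Y1 S n :=
    (sum_range_add_sum_Ico _ (by omega)).symm
  have hT : ∑ n ∈ Ico 15 (Q + 1), kapW (epsQ Q) n * Y1 S n ≤ 49 / 500 * τ := by
    refine le_trans (le_of_eq ?_) (tail_le (Q := Q) (fun n => Y1 S n / coNrm (epsQ Q) n) hτ
      (fun n _ hn => div_nonneg (hY0 n) (hco n hn).le)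
      (fun n _ hn => by rw [div_le_iff₀ (hco n hn)]; linarith [hY n hn]))
    exact sum_congr rfl fun n hn => kappaS_mul_eq (by simp only [mem_Ico] at hn; omega)
  have h14 : kapW (epsQ Q) 14 * Y1 S 14 ≤ 0 := by
    rw [kappaS_mul_eq (show 14 ≤ Q by omega)]
    have he : (1 : ℝ) / Q ≤ 1 / 25 := by
      gcongr; exact_mod_cast hQ
    refine mul_nonpos_iff.2 (Or.inr ⟨mul_nonpos_iff.2 (Or.inr ⟨?_, ?_⟩),
      div_nonneg (hY0 14) (hco 14 (by omega)).le⟩)
    · simpa [epsQ] using (kappaS_bounds (Q := Q) (n := 14) (by norm_num) (by omega)).1 (by decide)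
    · push_cast; linarith
  have hhead : ∑ n ∈ range 15, kapW (epsQ Q) n * Y1 S n =
      (tSet.map fun n => kapW (epsQ Q) n *
        pform S.χ (S.comb (z1 (epsQ Q) n)) (S.comb (z1 (epsQ Q) n))).sum +
      kapW (epsQ Q) 14 * Y1 S 14 := by
    simp only [tSet, List.map_cons, List.map_nil, List.sum_cons, List.sum_nil, sum_range_succ,
      range_zero, sum_empty, Y1_null S (Or.inl rfl), Y1_null S (Or.inr (Or.inl rfl)),
      Y1_null S (Or.inr (Or.inr rfl)), mul_zero, ← zOp_zero_eq_comb]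
    simp only [Y1]
    ring
  have hQr : (25 : ℝ) ≤ Q := by exact_mod_cast hQ
  rw [hsplit, hhead]
  have h1 := mul_le_mul_of_nonneg_left (add_le_add h14 hT) (show (0 : ℝ) ≤ (Q : ℝ) / 4 by positivity)
  nlinarith [mul_nonneg (show (0 : ℝ) ≤ (Q : ℝ) - 25 by linarith) hτ]

end Vale.Agent.P359.Moment.Kap

namespace Vale.Agent.P359.Moment

/-- (T) in the form of the chain. -/
theorem stmtT : StmtT :=
  ⟨25, fun _ _ hQ hQ0 χ h => Kap.phiT_le (sysQ hQ0 χ h) hQ rfl⟩

end Vale.Agent.P359.Moment
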