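import Vale.Agent.P359.Moment.Sys
import Vale.Agent.P359.Psd

/-!
The linear forms of the moment certificate, as programs over a commutative `ℚ`-algebra.

No program branches on a coefficient, so the monomials do not depend on `eps` and a ring
homomorphism only maps the coefficients.
-/

namespace Vale.Agent.P359.Moment

/-- A linear form in the moments. -/
abbrev Lin (R : Type*) := List (R × (St × St))

/-- A linear combination of monomials. -/
abbrev Comb (R : Type*) := List (R × St)

variable {R : Type*} [CommRing R]

/-- Multiply all coefficients. -/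
def scale {α : Type*} (c : R) (L : List (R × α)) : List (R × α) :=
  L.map fun p => (c * p.1, p.2)

/-- The moments of two combinations. -/
def cross (A B : Comb R) : Lin R :=
  A.flatMap fun p => B.map fun q => (p.1 * q.1, (p.2, q.2))

/-- Add one term to a combination with distinct monomials. -/
def accum {α : Type*} [DecidableEq α] (p : R × α) : List (R × α) → List (R × α)
  | [] => [p]
  | q :: l => if q.2 = p.2 then (p.1 + q.1, q.2) :: l else q :: accum p l

/-- Collect equal monomials. -/
def collect {α : Type*} [DecidableEq α] (L : List (R × α)) : List (R × α) :=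
  L.foldr accum []

/-- A sign. -/
def sgn (b : Bool) : R := if b then -1 else 1

/-- Insert into an increasing list, with the parity of the move; `none` on a repetition. -/
def ins (a : ℕ) : List ℕ → Option (Bool × List ℕ)
  | [] => some (false, [a])
  | b :: l =>
    if a < b then some (false, a :: b :: l)
    else if a = b then none
    else (ins a l).map fun p => (!p.1, b :: p.2)

/-- Sort a word, with the parity; `none` on a repetition. -/
def canon : List ℕ → Option (Bool × List ℕ)
  | [] => some (false, [])
  | a :: l => (canon l).bind fun p => (ins a p.2).map fun q => (p.1 ^^ q.1, q.2)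

/-- A multiple of a word, sorted. -/
def wordComb (c : R) (l : List ℕ) : Comb R :=
  match canon l with
  | none => []
  | some p => [(c * sgn p.1, St.word p.2)]

/-- A pair and two particles as increasing words. -/
def winComb (eps : R) (k a b : ℕ) : Comb R :=
  (List.range (k + 2)).flatMap fun i =>
    wordComb (Coef.desc 1 1 eps 1 k i) [a, b, k + 1 - i, i]

/-- Two pairs as increasing words. -/
def pairsComb (eps : R) (k l : ℕ) : Comb R :=
  (List.range (k + 2)).flatMap fun i => (List.range (l + 2)).flatMap fun j =>
    wordComb (Coef.desc 1 1 eps 1 k i * Coef.desc 1 1 eps 1 l j) [k + 1 - i, i, l + 1 - j, j]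

/-- The highest-weight pair and particle of channel `n`. -/
def z1 (eps : R) (n : ℕ) : Comb R :=
  (List.range (n + 1)).map fun i => (Coef.co eps n 0 i, St.one i (n - i))

/-- The highest-weight pair of pairs number `n`. -/
def z2 (eps : R) (n : ℕ) : Comb R :=
  collect <| (List.range (n + 1)).flatMap fun i =>
    scale (Coef.hw (Coef.rhoJ eps) (Coef.rhoJ eps) eps n i) (pairsComb eps i (n - i))

/-- The channels kept exactly. -/
def tSet : List ℕ := [2, 4, 5, 6, 7, 8, 9, 10, 11, 12, 13]

/-- The two-pair channels used as slack. -/
def ySet : List ℕ := List.range 16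

/-- The scalars of the target: `c`, the channel weights and the two-pair weights. -/
structure Par (R : Type*) where
  eps : R
  c : R
  kap : ℕ → R
  wy : ℕ → R

/-- The target `c H + Y - T`. -/
def target (P : Par R) : Lin R :=
  [(P.c * (2 - P.eps), (St.bh 0, St.bh 0))] ++
    (tSet.flatMap fun n => scale (-P.kap n) (cross (z1 P.eps n) (z1 P.eps n))) ++
    (ySet.flatMap fun n => scale (P.wy n) (cross (z2 P.eps n) (z2 P.eps n)))

/-- The rows of a Gram block: a pair, or a particle moved in front of a pair. -/
inductive Row : Type
  | scal (k : ℕ)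
  | full (k a b : ℕ)
  deriving DecidableEq

/-- Order the two particles of a window monomial. -/
def winKey (c : R) (k a b : ℕ) : Comb R :=
  if a < b then [(c, St.win k a b)] else if a = b then [] else [(-c, St.win k b a)]

/-- The moments of two rows, after normal ordering. -/
def rowPair (eps : R) : Row → Row → Lin R
  | .scal k, .scal l =>
    if k = l then [(Coef.nrm (Coef.rhoJ eps) eps k, (St.bh 0, St.bh 0))]
    else [(1, (St.bh k, St.bh l))]
  | .scal k, .full l a b => [(1, (St.one k a, St.one l b))]
  | .full k a b, .scal l => [(1, (St.one k b, St.one l a))]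
  | .full k a b, .full l a' b' =>
    (if a = a' then [(Coef.nrm 1 eps a, (St.one k b, St.one l b'))] else []) ++
      cross (winKey (-1) k a' b) (winKey 1 l a b')

/-- A Gram block: rows, their scale and an integer factor. -/
abbrev Block := List (Row × ℕ × List ℤ)

variable [Algebra ℚ R]

/-- One Gram block `Z Zᵀ`, scaled by `S` and by the rows. -/
def blockLin (eps : R) (S : ℕ) (B : Block) : Lin R :=
  B.flatMap fun p => B.flatMap fun q =>
    scale (algebraMap ℚ R
      ((Psd.dot p.2.2 q.2.2 : ℚ) / ((S : ℚ) ^ 2 * (p.2.1 : ℚ) * (q.2.1 : ℚ))))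
      (rowPair eps p.1 q.1)

/-- Invariance in pair-particle space, times a multiplier. -/
def gauge3 (eps : R) (d : (ℕ × ℕ × ℕ × ℕ) × ℚ) : Lin R :=
  match d with
  | ((k, a, l, b), z) =>
    scale (algebraMap ℚ R z)
      ((if a = 0 then [] else [(Coef.eCo 1 eps a, (St.one k (a - 1), St.one l b))]) ++
        (if k = 0 then [] else
          [(Coef.eCo (Coef.rhoJ eps) eps k, (St.one (k - 1) a, St.one l b))]) ++
        [(-1, (St.one k a, St.one l (b + 1))), (-1, (St.one k a, St.one (l + 1) b))])

/-- A word with one entry lowered. -/
def lowerWord (eps : R) (I : List ℕ) : Comb R :=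
  (List.range I.length).flatMap fun i =>
    if I.getD i 0 = 0 then []
    else wordComb (Coef.eCo 1 eps (I.getD i 0)) (I.set i (I.getD i 0 - 1))

/-- A word with one entry raised. -/
def raiseWord (J : List ℕ) : Comb R :=
  (List.range J.length).flatMap fun i => wordComb 1 (J.set i (J.getD i 0 + 1))

/-- Invariance in four-particle space, times a multiplier. -/
def gauge4 (eps : R) (d : (List ℕ × List ℕ) × ℚ) : Lin R :=
  match d with
  | ((I, J), z) =>
    scale (algebraMap ℚ R z)
      (cross (lowerWord eps I) [(1, St.word J)] ++ cross [(-1, St.word I)] (raiseWord J))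

/-- The vanishing channels, times a multiplier. -/
def nullLin (eps : R) (d : (ℕ × ℕ × ℕ) × ℚ) : Lin R :=
  match d with
  | ((n, l, b), z) =>
    if n = 0 ∨ n = 1 ∨ n = 3 then scale (algebraMap ℚ R z) (cross (z1 eps n) [(1, St.one l b)])
    else []

/-- The data of a certificate. -/
structure Data where
  S : ℕ
  blocks : List Block
  g3 : List ((ℕ × ℕ × ℕ × ℕ) × ℚ)
  g4 : List ((List ℕ × List ℕ) × ℚ)
  null : List ((ℕ × ℕ × ℕ) × ℚ)

/-- What is left of the target: it has to be positive semidefinite weight by weight. -/
def residual (P : Par R) (d : Data) : Lin R :=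
  target P ++ scale (-1) (d.blocks.flatMap (blockLin P.eps d.S)) ++
    d.g3.flatMap (gauge3 P.eps) ++ d.g4.flatMap (gauge4 P.eps) ++ d.null.flatMap (nullLin P.eps)

/-- The coefficient of one pair of monomials. -/
def coeffAt (L : Lin R) (s t : St) : R :=
  ((L.filter fun p => decide (p.2 = (s, t))).map Prod.fst).sum

section Real

variable {E : Type*} [NormedAddCommGroup E] [InnerProductSpace ℂ E] {eps : ℝ} {ι : Type*}
  [Fintype ι] (S : Sys eps E ι)

/-- The value of a linear form. -/
noncomputable def Sys.ev (L : Lin ℝ) : ℝ := (L.map fun p => p.1 * S.val p.2).sum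

/-- The operator of a combination. -/
noncomputable def Sys.comb (A : Comb ℝ) : Module.End ℂ E :=
  (A.map fun p => (p.1 : ℂ) • S.op p.2).sum

end Real

/-- The channel weight `κ_n (3 - (1 + 2n) eps) / coNrm n`. -/
def kapW {K : Type*} [Field K] (eps : K) (n : ℕ) : K :=
  (-1) ^ (n + 1) * (∏ l ∈ Finset.range n, (1 - (l : K) * eps) / (2 - 2 * eps - (l : K) * eps)) *
    ((3 - eps) * n - (n : K) ^ 2 * eps - 1) * (3 - (1 + 2 * (n : K)) * eps) / Coef.coNrm eps n

/-- The two-pair weight `(4 - (3 + 2n) eps) / (4 hwNrm n)`. -/
def wyW {K : Type*} [Field K] (eps : K) (n : ℕ) : K :=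
  (4 - (3 + 2 * (n : K)) * eps) /
    (4 * Coef.hwNrm (Coef.rhoJ eps) (Coef.rhoJ eps) eps n)

/-- The constant of the certificate. -/
def cRat : ℚ := 937 / 1000

/-- The target parameters at `eps`. -/
def parAt {K : Type*} [Field K] [CharZero K] (eps : K) : Par K :=
  ⟨eps, (cRat : K), kapW eps, wyW eps⟩

end Vale.Agent.P359.Moment
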