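import Vale.Agent.P359.LadderBox
import Vale.Agent.P359.Moment.Lin
import Vale.Agent.P359.Moment.SysFacts

/-!
# The ladders of an invariant system

The particle, pair, pair-particle and pair-pair ladders, their moments and their orthogonality.
-/

open Finset RCLike
open scoped InnerProductSpace

namespace Vale.Agent.P359.Moment

variable {E : Type*} [NormedAddCommGroup E] [InnerProductSpace ℂ E]

/-- The trace form of a finite family, with complex values. -/
noncomputable def cform {ι : Type*} [Fintype ι] (χ : ι → E) :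
    Module.End ℂ E →ₗ⋆[ℂ] Module.End ℂ E →ₗ[ℂ] ℂ :=
  LinearMap.mk₂'ₛₗ (starRingEnd ℂ) (RingHom.id ℂ)
    (fun X Y => ∑ i, ⟪X (χ i), Y (χ i)⟫_ℂ)
    (fun a b c => by simp [sum_add_distrib])
    (fun r a c => by simp [Finset.sum_mul, mul_comm])
    (fun a b c => by simp [sum_add_distrib])
    (fun r a c => by simp [Finset.mul_sum])

lemma cform_apply {ι : Type*} [Fintype ι] (χ : ι → E) (X Y : Module.End ℂ E) :
    cform χ X Y = ∑ i, ⟪X (χ i), Y (χ i)⟫_ℂ := rfl

lemma pform_eq_re {ι : Type*} [Fintype ι] (χ : ι → E) (X Y : Module.End ℂ E) :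
    pform χ X Y = (cform χ X Y).re := rfl

lemma cform_conj {ι : Type*} [Fintype ι] (χ : ι → E) (X Y : Module.End ℂ E) :
    starRingEnd ℂ (cform χ X Y) = cform χ Y X := by
  simp only [cform_apply, map_sum, inner_conj_symm]

lemma coe_eCo (rho eps : ℝ) (i : ℕ) :
    ((Coef.eCo rho eps i : ℝ) : ℂ) = Coef.eCo (rho : ℂ) eps i := by
  simp [Coef.eCo]

lemma coe_hw (r₁ r₂ eps : ℝ) (n i : ℕ) :
    ((Coef.hw r₁ r₂ eps n i : ℝ) : ℂ) = Coef.hw (r₁ : ℂ) r₂ eps n i := by
  simp only [Coef.hw]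
  split_ifs <;> simp

lemma coe_desc (r₁ r₂ eps : ℝ) (n M i : ℕ) :
    ((Coef.desc r₁ r₂ eps n M i : ℝ) : ℂ) = Coef.desc (r₁ : ℂ) r₂ eps n M i := by
  simp only [Coef.desc, Complex.ofReal_sum]
  refine Finset.sum_congr rfl fun r _ => ?_
  split_ifs <;> simp [coe_hw]

lemma coe_rhoJ (eps : ℝ) : ((Coef.rhoJ eps : ℝ) : ℂ) = Coef.rhoJ (eps : ℂ) := by
  simp [Coef.rhoJ]

/-- The highest-weight pair of a system as a composition of the particle ladder with itself. -/
lemma bh_eq_comp (eps : ℝ) (u : ℕ → Module.End ℂ E) :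
    bh eps u = Ladder.comp ℂ 1 1 eps 1 u u := by
  rfl

lemma rhoOf_pair (eps : ℝ) : Coef.rhoOf 1 1 eps 1 = Coef.rhoJ eps := by
  simp only [Coef.rhoOf, Coef.rhoJ]
  push_cast
  ring

lemma brk_leibniz (e : Module.End ℂ E) : ∀ a b : Module.End ℂ E,
    Ladder.brk (𝕜 := ℂ) e (a * b) = Ladder.brk (𝕜 := ℂ) e a * b + a * Ladder.brk (𝕜 := ℂ) e b :=
  Ladder.brk_mul e

/-- A ladder from the two bracket relations. -/
lemma isLadder_of_brackets {rho eps : ℝ} {X : ℕ → Module.End ℂ E} {Ep Fm : Module.End ℂ E}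
    (hE : ∀ a, X a * Ep - Ep * X a = X (a + 1))
    (hF : ∀ a, X a * Fm - Fm * X a = (Coef.eCo rho eps a : ℂ) • X (a - 1)) :
    Ladder.IsLadder (Ladder.brk (𝕜 := ℂ) Ep) (Ladder.brk (𝕜 := ℂ) Fm) rho eps X :=
  ⟨hE, fun i => by rw [Ladder.brk_apply, hF, ← coe_eCo]; simp,
    by rw [Ladder.brk_apply, hF]; simp [Coef.eCo]⟩

/-- The bracket relations of a ladder. -/
lemma brackets_of_isLadder {rho eps : ℝ} {X : ℕ → Module.End ℂ E} {Ep Fm : Module.End ℂ E}
    (h : Ladder.IsLadder (Ladder.brk (𝕜 := ℂ) Ep) (Ladder.brk (𝕜 := ℂ) Fm) rho eps X) :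
    (∀ a, X a * Ep - Ep * X a = X (a + 1)) ∧
      ∀ a, X a * Fm - Fm * X a = (Coef.eCo rho eps a : ℂ) • X (a - 1) := by
  refine ⟨h.raise, fun a => ?_⟩
  cases a with
  | zero =>
    have := h.lower_zero
    rw [Ladder.brk_apply] at this
    simp [this, Coef.eCo]
  | succ a =>
    have := h.lower a
    rw [Ladder.brk_apply] at this
    simpa [← coe_eCo] using this

/-- The pair relations follow from the particle relations. -/
theorem bh_brackets {eps : ℝ} {u : ℕ → Module.End ℂ E} {Ep Fm : Module.End ℂ E}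
    (hE : ∀ a, u a * Ep - Ep * u a = u (a + 1))
    (hF : ∀ a, u a * Fm - Fm * u a = (Coef.eCo 1 eps a : ℂ) • u (a - 1)) :
    (∀ k, bh eps u k * Ep - Ep * bh eps u k = bh eps u (k + 1)) ∧
      ∀ k, bh eps u k * Fm - Fm * bh eps u k =
        (Coef.eCo (Coef.rhoJ eps) eps k : ℂ) • bh eps u (k - 1) := by
  have hu : Ladder.IsLadder (Ladder.brk (𝕜 := ℂ) Ep) (Ladder.brk (𝕜 := ℂ) Fm) 1 eps u :=
    isLadder_of_brackets hE (by simpa using hF)
  rw [← coe_rhoJ]
  refine brackets_of_isLadder ?_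
  rw [bh_eq_comp, ← rhoOf_pair]
  exact Ladder.comp_ladder (brk_leibniz Ep) (brk_leibniz Fm) hu hu 1

variable {eps : ℝ} {ι : Type*} [Fintype ι] (S : Sys eps E ι)

/-- The bracket with the raising operator. -/
noncomputable def Sys.brkE : Module.End ℂ E →ₗ[ℂ] Module.End ℂ E := Ladder.brk S.Ep

/-- The bracket with the lowering operator. -/
noncomputable def Sys.brkF : Module.End ℂ E →ₗ[ℂ] Module.End ℂ E := Ladder.brk S.Fm

/-- The moments form is invariant. -/
theorem Sys.invariant : Ladder.IsInvariant S.brkE S.brkF (cform S.χ) := by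
  have key : ∀ X Y, cform S.χ (S.brkF X) Y = cform S.χ X (S.brkE Y) := by
    intro X Y
    refine Complex.ext (S.inv X Y).symm ?_
    have h := S.inv X ((-Complex.I) • Y)
    simp only [pform_eq_re, smul_mul_assoc, mul_smul_comm, ← smul_sub, map_smul, smul_eq_mul] at h
    change ((-Complex.I) * cform S.χ X (S.brkE Y)).re = ((-Complex.I) * cform S.χ (S.brkF X) Y).re
      at h
    simpa [Complex.mul_re] using h.symm
  refine ⟨fun X Y => ?_, key⟩
  rw [← cform_conj S.χ Y, ← key, cform_conj]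

/-- The particle ladder. -/
theorem Sys.u_ladder : Ladder.IsLadder S.brkE S.brkF 1 eps S.u :=
  S.ladder

/-- The descendants of channel `n` of a pair and a particle. -/
noncomputable def Sys.Z1 (n M : ℕ) : Module.End ℂ E :=
  Ladder.comp ℂ (Coef.rhoJ eps) 1 eps n (Moment.bh eps S.u) S.u M

/-- The descendants of component `n` of two pairs. -/
noncomputable def Sys.Z2 (n M : ℕ) : Module.End ℂ E :=
  Ladder.comp ℂ (Coef.rhoJ eps) (Coef.rhoJ eps) eps n (Moment.bh eps S.u) (Moment.bh eps S.u) M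

theorem Sys.Z1_ladder (n : ℕ) : Ladder.IsLadder S.brkE S.brkF (Coef.rho3 eps n) eps (S.Z1 n) :=
  Ladder.comp_ladder (brk_leibniz S.Ep) (brk_leibniz S.Fm) S.bh_ladder S.u_ladder n

theorem Sys.Z2_ladder (n : ℕ) : Ladder.IsLadder S.brkE S.brkF
    (Coef.rhoOf (Coef.rhoJ eps) (Coef.rhoJ eps) eps n) eps (S.Z2 n) :=
  Ladder.comp_ladder (brk_leibniz S.Ep) (brk_leibniz S.Fm) S.bh_ladder S.bh_ladder n

/-- The highest weights are killed by the lowering bracket. -/
theorem Sys.Z1_zero_F (n : ℕ) : S.Z1 n 0 * S.Fm - S.Fm * S.Z1 n 0 = 0 := (S.Z1_ladder n).lower_zero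

theorem Sys.Z2_zero_F (n : ℕ) : S.Z2 n 0 * S.Fm - S.Fm * S.Z2 n 0 = 0 := (S.Z2_ladder n).lower_zero

lemma re_ofReal_mul' (r : ℝ) (z : ℂ) : ((r : ℂ) * z).re = r * z.re := Complex.re_ofReal_mul r z

/-- Moments of two ladders. -/
theorem Sys.pform_ladder {ρ σ : ℝ} {X Y : ℕ → Module.End ℂ E}
    (hX : Ladder.IsLadder S.brkE S.brkF ρ eps X) (hY : Ladder.IsLadder S.brkE S.brkF σ eps Y)
    (i l : ℕ) : pform S.χ (X i) (Y l) =
      if i = l then Coef.nrm σ eps i * pform S.χ (X 0) (Y 0) else 0 := by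
  rw [pform_eq_re, pform_eq_re, Ladder.ladder_lemma S.invariant hX hY i l]
  split_ifs
  · exact Complex.re_ofReal_mul _ _
  · simp

/-- Moments of ladders with different parameters vanish. -/
theorem Sys.pform_ladder_orth {ρ σ : ℝ} {X Y : ℕ → Module.End ℂ E}
    (hX : Ladder.IsLadder S.brkE S.brkF ρ eps X) (hY : Ladder.IsLadder S.brkE S.brkF σ eps Y)
    (h : ρ ≠ σ) (i l : ℕ) : pform S.χ (X i) (Y l) = 0 := by
  rw [pform_eq_re, Ladder.ladder_orth S.invariant hX hY h i l, Complex.zero_re]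

theorem Sys.pform_u (a b : ℕ) : pform S.χ (S.u a) (S.u b) =
    if a = b then Coef.nrm 1 eps a * pform S.χ (S.u 0) (S.u 0) else 0 :=
  S.pform_ladder S.u_ladder S.u_ladder a b

theorem Sys.pform_bh (k l : ℕ) : pform S.χ (Moment.bh eps S.u k) (Moment.bh eps S.u l) =
    if k = l then Coef.nrm (Coef.rhoJ eps) eps k *
      pform S.χ (Moment.bh eps S.u 0) (Moment.bh eps S.u 0) else 0 :=
  S.pform_ladder S.bh_ladder S.bh_ladder k l

/-- The moments of the pair-particle channels. -/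
theorem Sys.pform_Z1 (heps : eps ≠ 0) (n n' M M' : ℕ) : pform S.χ (S.Z1 n M) (S.Z1 n' M') =
    if n = n' ∧ M = M' then
      Coef.nrm (Coef.rho3 eps n) eps M * pform S.χ (S.Z1 n 0) (S.Z1 n 0) else 0 := by
  rcases eq_or_ne n n' with rfl | hn
  · simp only [true_and]
    exact S.pform_ladder (S.Z1_ladder n) (S.Z1_ladder n) M M'
  · rw [if_neg (fun h => hn h.1),
      S.pform_ladder_orth (S.Z1_ladder n) (S.Z1_ladder n') ?_ M M']
    simpa [Coef.rho3, Coef.rhoOf, heps] using hn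

/-- The moments of the pair-pair components. -/
theorem Sys.pform_Z2 (heps : eps ≠ 0) (n n' M M' : ℕ) : pform S.χ (S.Z2 n M) (S.Z2 n' M') =
    if n = n' ∧ M = M' then Coef.nrm (Coef.rhoOf (Coef.rhoJ eps) (Coef.rhoJ eps) eps n) eps M *
      pform S.χ (S.Z2 n 0) (S.Z2 n 0) else 0 := by
  rcases eq_or_ne n n' with rfl | hn
  · simp only [true_and]
    exact S.pform_ladder (S.Z2_ladder n) (S.Z2_ladder n) M M'
  · rw [if_neg (fun h => hn h.1),
      S.pform_ladder_orth (S.Z2_ladder n) (S.Z2_ladder n') ?_ M M']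
    simpa [Coef.rhoOf, heps] using hn

lemma sum_map_range {M : Type*} [AddCommMonoid M] (f : ℕ → M) (m : ℕ) :
    ((List.range m).map f).sum = ∑ i ∈ Finset.range m, f i := by
  induction m with
  | zero => simp
  | succ m ih => rw [List.range_succ, List.map_append, List.sum_append, ih,
      Finset.sum_range_succ]; simp

/-- The program `z1` is the highest weight of channel `n`. -/
theorem Sys.comb_z1 (n : ℕ) : S.comb (z1 eps n) = S.Z1 n 0 := by
  simp only [Sys.comb, z1, List.map_map, Sys.Z1, Ladder.comp, Nat.add_zero]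
  rw [sum_map_range]
  rfl

/-- Pairs commute. -/
theorem Sys.bh_comm (k l : ℕ) :
    Moment.bh eps S.u k * Moment.bh eps S.u l = Moment.bh eps S.u l * Moment.bh eps S.u k := by
  have key : ∀ a b c d, S.u a * S.u b * (S.u c * S.u d) = S.u c * S.u d * (S.u a * S.u b) := by
    have step : ∀ p q r, S.u p * S.u q * S.u r = S.u r * (S.u p * S.u q) := by
      intro p q r
      rw [mul_assoc, S.anti q r, mul_neg, ← mul_assoc, S.anti p r, neg_mul, neg_neg, mul_assoc]
    intro a b c d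
    rw [← mul_assoc, step, mul_assoc, step, ← mul_assoc]
  simp only [Moment.bh, Ladder.comp, Finset.sum_mul]
  simp only [Finset.mul_sum, smul_mul_assoc, mul_smul_comm, smul_smul]
  rw [Finset.sum_comm]
  exact Finset.sum_congr rfl fun i _ => Finset.sum_congr rfl fun j _ => by rw [key, mul_comm]

/-- The highest weight of component `n` of two pairs, in either order. -/
theorem Sys.Z2_zero (n : ℕ) : S.Z2 n 0 = ∑ i ∈ Finset.range (n + 1),
    ((Coef.hw (Coef.rhoJ eps) (Coef.rhoJ eps) eps n i : ℝ) : ℂ) •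
      (Moment.bh eps S.u i * Moment.bh eps S.u (n - i)) := by
  rw [Sys.Z2, Ladder.comp]
  simp only [Ladder.desc_zero, Nat.add_zero]
  exact Finset.sum_congr rfl fun i _ => by rw [S.bh_comm]; rfl

end Vale.Agent.P359.Moment
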