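import Vale.Agent.P359.Moment.Chain

/-!
The pair scaling: the scaled pair annihilators against the normalised pair channels of the Fock
space, and the pair energy of an invariant family in terms of the lowest pair moment.
-/

open Finset RCLike
open scoped InnerProductSpace

namespace Vale.Agent.P359.Moment

open Coef

theorem bh_u_top {Q k : ℕ} (hQ : 0 < Q) (h : 2 * Q - 1 ≤ k) :
    bh (epsQ Q) (P359.u Q) k = 0 :=
  Bh_top hQ h

theorem nrm_chan_pos {Q : ℕ} (m : Chan Q) : 0 < nrm (rhoJ (epsQ Q)) (epsQ Q) m :=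
  nrm_rhoJ_pos m.isLt

/-- The scaled pair annihilator is the normalised channel, scaled by `2 √nrm`. -/
theorem bh_pair {Q : ℕ} (m : Chan Q) : bh (epsQ Q) (P359.u Q) m =
    ((2 * Real.sqrt (nrm (rhoJ (epsQ Q)) (epsQ Q) m) : ℝ) : ℂ) •
      (carQ Q).pair (coef Q) m := by
  have hm := m.isLt
  have hQ : 0 < Q := by omega
  have hk := kapB_sq_pairZ (k := m) hQ
  have hZ : 0 < pairZ Q ((m : ℕ) + 1) := pairZ_pos (by omega) (by omega)
  have hs : 0 < Real.sqrt (2 * pairZ Q ((m : ℕ) + 1)) := Real.sqrt_pos.2 (by positivity)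
  have hkn : 0 ≤ kapB Q m := by unfold kapB; positivity
  have key : 2 * Real.sqrt (nrm (rhoJ (epsQ Q)) (epsQ Q) m) =
      kapB Q m * Real.sqrt (2 * pairZ Q ((m : ℕ) + 1)) := by
    rw [show nrm (rhoJ (epsQ Q)) (epsQ Q) m =
        kapB Q m ^ 2 * (2 * pairZ Q ((m : ℕ) + 1)) / 2 ^ 2 by linarith,
      Real.sqrt_div' _ (by positivity), Real.sqrt_sq zero_le_two, Real.sqrt_mul (sq_nonneg _),
      Real.sqrt_sq hkn]
    ring
  rw [key]
  change Bh Q m = _
  rw [Bh_eq hQ]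
  simp only [Car.pair, Finset.smul_sum, smul_smul, coef]
  refine sum_congr rfl fun a _ => sum_congr rfl fun b _ => ?_
  congr 1
  change ((kapB Q m : ℝ) : ℂ) * ((pairVec Q ((m : ℕ) + 1) a b : ℝ) : ℂ) =
    ((kapB Q m * Real.sqrt (2 * pairZ Q ((m : ℕ) + 1)) : ℝ) : ℂ) *
      ((pairVec Q ((m : ℕ) + 1) a b / Real.sqrt (2 * pairZ Q ((m : ℕ) + 1)) : ℝ) : ℂ)
  rw [← Complex.ofReal_mul, ← Complex.ofReal_mul]
  congr 1
  field_simp

/-- The normalised channel in the scaled pair annihilator. -/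
theorem pair_eq_bh {Q : ℕ} (m : Chan Q) : (carQ Q).pair (coef Q) m =
    ((1 / (2 * Real.sqrt (nrm (rhoJ (epsQ Q)) (epsQ Q) m)) : ℝ) : ℂ) •
      bh (epsQ Q) (P359.u Q) m := by
  have h := Real.sqrt_pos.2 (nrm_chan_pos m)
  rw [bh_pair, smul_smul, ← Complex.ofReal_mul, one_div_mul_cancel (by positivity)]
  simp

/-- (H): the pair energy of an invariant family is a multiple of the lowest pair moment. -/
theorem stmtH : StmtH := by
  intro Q r hQ χ h
  have hterm : ∀ k ∈ range (2 * Q - 1),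
      ∑ i, 1 / (4 * nrm (rhoJ (epsQ Q)) (epsQ Q) k) * ‖Bh Q k (χ i)‖ ^ 2 =
        (sysQ hQ χ h).tau / 4 := by
    intro k hk
    have hn := nrm_rhoJ_pos (mem_range.1 hk)
    have e := Slack.pform_ladder (χ := χ) (pinvariant_Pf h) (Bh_ladder hQ) k
    rw [Slack.pform_self] at e
    rw [← Finset.mul_sum, e]
    show _ = Slack.pform χ (Bh Q 0) (Bh Q 0) / 4
    field_simp
  have hsum : ∀ i, ∑ m, ‖pairFam (χ i) m‖ ^ 2 =
      ∑ k ∈ range (2 * Q - 1), 1 / (4 * nrm (rhoJ (epsQ Q)) (epsQ Q) k) *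
        ‖Bh Q k (χ i)‖ ^ 2 := fun i => norm_pair_sq Q (χ i)
  rw [phiH, sum_congr rfl fun i _ => hsum i, Finset.sum_comm, sum_congr rfl hterm, sum_const,
    card_range, nsmul_eq_mul, Nat.cast_sub (by omega)]
  push_cast
  ring

end Vale.Agent.P359.Moment
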