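import Vale.Agent.P359.Moment.Chain
import Vale.Agent.P359.Moment.Words

/-!
The slack of the certificate: the two-pair moments bound `∑ wyW W_n` from above.
-/

open Finset
open scoped InnerProductSpace

namespace Vale.Agent.P359.Moment

/-- (Y) for the system of an invariant family. -/
theorem stmtY : StmtY := by
  refine ⟨9, fun Q r hQ hQ0 χ h => ?_⟩
  set S := sysQ hQ0 χ h with hS
  have he : 0 < epsQ Q := by unfold epsQ; positivity
  have hq : epsQ Q * (Q : ℝ) = 1 := one_div_mul_cancel (Nat.cast_ne_zero.2 hQ0.ne')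
  set D := 2 * Q - 2 with hDdef
  have hD : Coef.rhoJ (epsQ Q) = (D : ℝ) * epsQ Q := by
    rw [hDdef, Nat.cast_sub (by omega), Coef.rhoJ]
    push_cast
    linear_combination -2 * hq
  have hzero : ∀ k, D < k → Bh Q k = 0 := fun k hk => Bh_top hQ0 (by omega)
  have hlad : Ladder.IsLadder (Rb Q) (Lb Q) (Coef.rhoJ (epsQ Q)) (epsQ Q) (Bh Q) := Bh_ladder hQ0
  have hb := Slack.slack_le (pinvariant_Pf h) he hD (NC := 15) (by omega) hlad hzero
  have hz2 : ∀ n, S.wMom n =
      Slack.pform χ (Slack.ww (epsQ Q) (Bh Q) n 0) (Slack.ww (epsQ Q) (Bh Q) n 0) := fun n => by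
    rw [Sys.wMom, S.comb_z2]
    rfl
  have hY : phiY χ = 1 / 16 * ∑ i ∈ range (D + 1), ∑ b ∈ range (D + 1),
      Slack.pform χ (Bh Q b * Bh Q i) (Bh Q b * Bh Q i) /
        (Coef.nrm (Coef.rhoJ (epsQ Q)) (epsQ Q) i * Coef.nrm (Coef.rhoJ (epsQ Q)) (epsQ Q) b) := by
    have hp : ∀ (m : Chan Q) (x : FockQ Q), ‖(carQ Q).pair (coef Q) m x‖ ^ 2 =
        1 / (4 * Coef.nrm (Coef.rhoJ (epsQ Q)) (epsQ Q) m) * ‖Bh Q m x‖ ^ 2 := fun m x => by
      have h1 := congrArg Complex.re (inner_pair m x x)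
      rw [Complex.re_ofReal_mul] at h1
      simpa [inner_self_eq_norm_sq_to_K, ← Complex.ofReal_pow] using h1
    have hc : ∀ (m n : Chan Q) (x : FockQ Q), (carQ Q).pair (coef Q) n ((carQ Q).pair (coef Q) m x) =
        (carQ Q).pair (coef Q) m ((carQ Q).pair (coef Q) n x) := fun m n x => by
      rw [← Module.End.mul_apply, (carQ Q).pair_comm, Module.End.mul_apply]
    have hBc : ∀ i b : ℕ, Bh Q i * Bh Q b = Bh Q b * Bh Q i := fun i b => S.pairs_comm i b
    have e : ∀ (m n : Chan Q) (x : FockQ Q),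
        ‖(carQ Q).pair (coef Q) n ((carQ Q).pair (coef Q) m x)‖ ^ 2 =
          1 / 16 * (‖(Bh Q n * Bh Q m) x‖ ^ 2 /
            (Coef.nrm (Coef.rhoJ (epsQ Q)) (epsQ Q) m *
              Coef.nrm (Coef.rhoJ (epsQ Q)) (epsQ Q) n)) := fun m n x => by
      rw [hp, Module.End.mul_apply]
      have hs : ‖Bh Q n ((carQ Q).pair (coef Q) m x)‖ ^ 2 =
          1 / (4 * Coef.nrm (Coef.rhoJ (epsQ Q)) (epsQ Q) m) * ‖Bh Q n (Bh Q m x)‖ ^ 2 := by
        have hcomm : Bh Q n * (carQ Q).pair (coef Q) m = (carQ Q).pair (coef Q) m * Bh Q n := by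
          rw [Bh_eq hQ0, Car.pair, smul_mul_assoc, mul_smul_comm]
          congr 1
          simp only [Finset.sum_mul]
          simp only [Finset.mul_sum, smul_mul_assoc, mul_smul_comm, smul_smul]
          rw [← sum_pairs_comm]
          refine sum_congr rfl fun a _ => sum_congr rfl fun b _ => sum_congr rfl fun c _ =>
            sum_congr rfl fun d _ => ?_
          have step : ∀ p q r, (carQ Q).ann p * (carQ Q).ann q * (carQ Q).ann r =
              (carQ Q).ann r * ((carQ Q).ann p * (carQ Q).ann q) := fun p q r => by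
            rw [mul_assoc, (carQ Q).anti q r, mul_neg, ← mul_assoc, (carQ Q).anti p r, neg_mul,
              neg_neg, mul_assoc]
          have key : ∀ p q r s, (carQ Q).ann p * (carQ Q).ann q * ((carQ Q).ann r * (carQ Q).ann s) =
              (carQ Q).ann r * (carQ Q).ann s * ((carQ Q).ann p * (carQ Q).ann q) := fun p q r s => by
            rw [← mul_assoc, step, mul_assoc, step, ← mul_assoc]
          rw [mul_comm, key]
        rw [← Module.End.mul_apply, hcomm, Module.End.mul_apply, hp, ← Module.End.mul_apply,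
          hBc, Module.End.mul_apply]
      rw [hs]
      ring
    have hm : 2 * Q - 1 = D + 1 := by omega
    simp only [phiY, yForm, pairFam, e, Slack.pform_self, Finset.sum_div, Finset.mul_sum]
    rw [sum_comm]
    rw [← hm, Finset.sum_range]
    refine sum_congr rfl fun m _ => ?_
    rw [Finset.sum_range, sum_comm]
  rw [hY, show (ySet.map fun n => wyW (epsQ Q) n * S.wMom n).sum =
    ∑ n ∈ range 16, wyW (epsQ Q) n * S.wMom n from sum_range_map _ _, mul_sum]
  refine le_of_eq_of_le ?_ (mul_le_mul_of_nonneg_left hb (by norm_num : (0 : ℝ) ≤ 1 / 16))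
  rw [mul_sum]
  refine sum_congr rfl fun n hn => ?_
  rw [mem_range] at hn
  rw [hz2, hDdef, Nat.cast_add, Nat.cast_sub (by omega), Nat.cast_mul, Nat.cast_sub (by omega)]
  push_cast
  rw [wyW]
  generalize Slack.pform χ (Slack.ww (epsQ Q) (Bh Q) n 0) (Slack.ww (epsQ Q) (Bh Q) n 0) = W
  generalize Coef.hwNrm (Coef.rhoJ (epsQ Q)) (Coef.rhoJ (epsQ Q)) (epsQ Q) n = H
  linear_combination (-(3 + 2 * (n : ℝ))) * W / (16 * H) * hq

end Vale.Agent.P359.Moment
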