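import Vale.Agent.P359.Moment.CertFinal
import Vale.Agent.P359.Moment.Relations
import Vale.Agent.P359.Moment.Kappa
import Vale.Agent.P359.Moment.YBound
import Vale.Agent.P359.Moment.PairScale
import Vale.Agent.P359.Moment.Chain

/-!
The spherical Laughlin gap conjecture.
-/

namespace Vale.Agent.P359.Moment

theorem gapConjecture : GapConjecture :=
  gapConjecture_of_parts targetEval stmtH stmtT stmtY certGoal

end Vale.Agent.P359.Moment
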