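import Vale.Agent.P359.Moment.Blocks

/-!
The coefficients of a substituted linear form from the tables of its classes.
-/

open Finset

namespace Vale.Agent.P359.Moment

variable {R : Type*} [CommRing R]

theorem sum_ite_get' {α : Type*} [DecidableEq α] (b : List α) (hb : b.Nodup) (s : α) :
    (∑ i : Fin b.length, if b.get i = s then (1 : R) else 0) = if s ∈ b then 1 else 0 := by
  split_ifs with h
  · obtain ⟨i, hi⟩ := List.get_of_mem h
    rw [Finset.sum_eq_single i]
    · simp only [hi, if_true]
    · intro j _ hj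
      rw [if_neg fun e => hj (hb.injective_get (e.trans hi.symm))]
    · simp
  · refine Finset.sum_eq_zero fun i _ => ?_
    rw [if_neg]
    intro e
    subst e
    exact h (List.get_mem b i)

/-- A sum over a linear form, class by class. -/
theorem sum_eq_classes (L : Lin R) (Cs : List (List St)) (hnd : Cs.flatten.Nodup)
    (hcov : ∀ p ∈ L, ∃ b ∈ Cs, p.2.1 ∈ b ∧ p.2.2 ∈ b) (F : St → St → R) :
    (L.map fun p => p.1 * F p.2.1 p.2.2).sum = (Cs.map fun b => ∑ i : Fin b.length,
      ∑ j : Fin b.length, coeffAt L (b.get i) (b.get j) * F (b.get i) (b.get j)).sum := by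
  induction L with
  | nil => simp [coeffAt]
  | cons p L ih =>
    obtain ⟨c, s, t⟩ := p
    obtain ⟨b₀, hb₀, hs, ht⟩ := hcov (c, (s, t)) (List.mem_cons_self ..)
    rw [List.map_cons, List.sum_cons, ih fun q hq => hcov q (List.mem_cons_of_mem _ hq)]
    simp only [coeffAt_cons, add_mul, Finset.sum_add_distrib, List.sum_map_add]
    congr 1
    obtain ⟨hn, hdj⟩ := List.nodup_flatten.1 hnd
    have hterm : ∀ b ∈ Cs, (∑ i : Fin b.length, ∑ j : Fin b.length,
        (if (s, t) = (b.get i, b.get j) then c else 0) * F (b.get i) (b.get j)) =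
        if s ∈ b ∧ t ∈ b then c * F s t else 0 := by
      intro b hb
      have e : ∀ i j : Fin b.length,
          (if (s, t) = (b.get i, b.get j) then c else 0) * F (b.get i) (b.get j) =
          (if b.get i = s then (1 : R) else 0) * (if b.get j = t then 1 else 0) * (c * F s t) := by
        intro i j
        by_cases hi : b.get i = s
        · by_cases hj : b.get j = t
          · rw [if_pos (by rw [hi, hj]), if_pos hi, if_pos hj, hi, hj]; ring
          · rw [if_neg fun e => hj (Prod.mk.inj e).2.symm, if_neg hj]; ring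
        · rw [if_neg fun e => hi (Prod.mk.inj e).1.symm, if_neg hi]; ring
      simp only [e, ← Finset.sum_mul, ← Finset.mul_sum, sum_ite_get' b (hn b hb)]
      by_cases h1 : s ∈ b <;> by_cases h2 : t ∈ b <;> simp [h1, h2]
    rw [List.map_congr_left hterm]
    clear ih hcov hterm
    induction Cs with
    | nil => simp at hb₀
    | cons b Cs ih' =>
      rw [List.map_cons, List.sum_cons]
      obtain ⟨hd1, hd2⟩ := List.pairwise_cons.1 hdj
      rcases List.mem_cons.1 hb₀ with rfl | hb'
      · rw [if_pos ⟨hs, ht⟩, List.sum_eq_zero, add_zero]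
        intro x hx
        obtain ⟨b', hb', rfl⟩ := List.mem_map.1 hx
        rw [if_neg fun h => List.disjoint_left.1 (hd1 b' hb') hs h.1]
      · rw [if_neg fun h => List.disjoint_left.1 (hd1 b₀ hb') h.1 hs, zero_add]
        refine ih' ?_ hb' (fun l hl => hn l (List.mem_cons_of_mem _ hl)) hd2
        rw [List.flatten_cons] at hnd
        exact hnd.of_append_right

theorem coeffAt_append (A B : Lin R) (s t : St) :
    coeffAt (A ++ B) s t = coeffAt A s t + coeffAt B s t := by
  simp [coeffAt, List.filter_append]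

theorem coeffAt_scale (c : R) (A : Lin R) (s t : St) :
    coeffAt (scale c A) s t = c * coeffAt A s t := by
  induction A with
  | nil => simp [scale, coeffAt]
  | cons p A ih =>
    rw [show scale c (p :: A) = (c * p.1, p.2) :: scale c A from rfl, coeffAt_cons, coeffAt_cons, ih]
    split_ifs <;> ring

theorem combAt_cons (p : R × St) (A : Comb R) (t : St) :
    combAt (p :: A) t = (if p.2 = t then p.1 else 0) + combAt A t := by
  by_cases h : p.2 = t <;> simp [combAt, h]

theorem coeffAt_cross (A B : Comb R) (s t : St) :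
    coeffAt (cross A B) s t = combAt A s * combAt B t := by
  induction A with
  | nil => simp [cross, coeffAt, combAt]
  | cons p A ih =>
    rw [show cross (p :: A) B = B.map (fun q => (p.1 * q.1, (p.2, q.2))) ++ cross A B from rfl,
      coeffAt_append, ih, combAt_cons, add_mul]
    congr 1
    clear ih
    induction B with
    | nil => simp [coeffAt, combAt]
    | cons q B ih =>
      rw [List.map_cons, coeffAt_cons, ih, combAt_cons, mul_add]
      congr 1
      by_cases h1 : p.2 = s <;> by_cases h2 : q.2 = t <;> simp [h1, h2]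

theorem combAt_eq_zero (A : Comb R) (t : St) (h : ∀ q ∈ A, q.2 ≠ t) : combAt A t = 0 := by
  induction A with
  | nil => simp [combAt]
  | cons p A ih =>
    rw [combAt_cons, if_neg (h p (List.mem_cons_self ..)),
      ih fun q hq => h q (List.mem_cons_of_mem _ hq), zero_add]

theorem combAt_single (s t : St) : combAt [((1 : R), s)] t = if s = t then 1 else 0 := by
  by_cases h : s = t <;> simp [combAt, h]

/-- The coefficient of a substituted form. -/
theorem coeffAt_substLin (D₀ : ℕ) (e : R) (L : Lin R) (s t : St) :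
    coeffAt (substLin D₀ e L) s t =
      (L.map fun p => p.1 * (combAt (subComb D₀ e p.2.1) s * combAt (subComb D₀ e p.2.2) t)).sum := by
  induction L with
  | nil => simp [substLin, coeffAt]
  | cons p L ih =>
    rw [substLin, List.flatMap_cons, coeffAt_append, coeffAt_scale, coeffAt_cross, List.map_cons,
      List.sum_cons]
    rw [substLin] at ih
    rw [ih]

/-- (1) The coefficient of a substituted form from the classes. -/
theorem coeffAt_substLin_classes (D₀ : ℕ) (e : R) (L : Lin R) (Cs : List (List St))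
    (hnd : Cs.flatten.Nodup) (hcov : ∀ p ∈ L, ∃ b ∈ Cs, p.2.1 ∈ b ∧ p.2.2 ∈ b) (s t : St) :
    coeffAt (substLin D₀ e L) s t = (Cs.map fun b => ∑ i : Fin b.length, ∑ j : Fin b.length,
      coeffAt L (b.get i) (b.get j) *
        (combAt (subComb D₀ e (b.get i)) s * combAt (subComb D₀ e (b.get j)) t)).sum := by
  rw [coeffAt_substLin]
  exact sum_eq_classes L Cs hnd hcov
    fun x y => combAt (subComb D₀ e x) s * combAt (subComb D₀ e y) t

/-- A class left fixed by the substitution contributes its own coefficient. -/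
theorem class_fixed (D₀ : ℕ) (e : R) (L : Lin R) (b : List St) (hb : b.Nodup)
    (hid : ∀ s ∈ b, subComb D₀ e s = [(1, s)]) (x y : Fin b.length) :
    ∑ i : Fin b.length, ∑ j : Fin b.length, coeffAt L (b.get i) (b.get j) *
      (combAt (subComb D₀ e (b.get i)) (b.get x) * combAt (subComb D₀ e (b.get j)) (b.get y)) =
      coeffAt L (b.get x) (b.get y) := by
  simp only [hid _ (List.get_mem b _), combAt_single, hb.injective_get.eq_iff]
  simp

/-- A block met by no other class keeps its coefficients. -/
theorem coeffAt_substLin_self (D₀ : ℕ) (e : R) (L : Lin R) (Cs : List (List St))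
    (hnd : Cs.flatten.Nodup) (hcov : ∀ p ∈ L, ∃ b ∈ Cs, p.2.1 ∈ b ∧ p.2.2 ∈ b)
    (T : List St) (hT : T ∈ Cs) (hid : ∀ s ∈ T, subComb D₀ e s = [(1, s)])
    (hsep : ∀ b ∈ Cs, b ≠ T → ∀ s ∈ b, ∀ q ∈ subComb D₀ e s, q.2 ∉ T) (x y : Fin T.length) :
    coeffAt (substLin D₀ e L) (T.get x) (T.get y) = coeffAt L (T.get x) (T.get y) := by
  have hTn : T.Nodup := (List.nodup_flatten.1 hnd).1 T hT
  rw [coeffAt_substLin_classes D₀ e L Cs hnd hcov]
  obtain ⟨-, hdj⟩ := List.nodup_flatten.1 hnd
  have key : ∀ (C : List (List St)), C.Pairwise List.Disjoint →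
      (∀ b ∈ C, b ≠ T → ∀ s ∈ b, ∀ q ∈ subComb D₀ e s, q.2 ∉ T) →
      (C.map fun b => ∑ i : Fin b.length, ∑ j : Fin b.length, coeffAt L (b.get i) (b.get j) *
        (combAt (subComb D₀ e (b.get i)) (T.get x) *
          combAt (subComb D₀ e (b.get j)) (T.get y))).sum =
      if T ∈ C then coeffAt L (T.get x) (T.get y) else 0 := by
    intro C hC hs
    induction C with
    | nil => simp
    | cons b C ih =>
      obtain ⟨h1, h2⟩ := List.pairwise_cons.1 hC
      rw [List.map_cons, List.sum_cons, ih h2 fun b hb => hs b (List.mem_cons_of_mem _ hb)]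
      by_cases hbT : b = T
      · subst hbT
        rw [class_fixed D₀ e L b hTn hid, if_pos (List.mem_cons_self ..), if_neg, add_zero]
        intro hm
        exact List.disjoint_left.1 (h1 b hm) (List.get_mem b x) (List.get_mem b x)
      · have hTmem : (T ∈ b :: C) ↔ T ∈ C := by simp [Ne.symm hbT]
        simp only [hTmem]
        rw [Finset.sum_eq_zero, zero_add]
        intro i _
        refine Finset.sum_eq_zero fun j _ => ?_
        rw [combAt_eq_zero _ (T.get x) fun q hq h => hs b (List.mem_cons_self ..) hbT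
          (b.get i) (List.get_mem b i) q hq (h ▸ List.get_mem T x)]
        simp
  rw [key Cs hdj hsep, if_pos hT]

/-- (2) A block met by itself and by one substituted class `N`. -/
theorem coeffAt_substLin_block (D₀ : ℕ) (e : R) (L : Lin R) (Cs : List (List St))
    (hnd : Cs.flatten.Nodup) (hcov : ∀ p ∈ L, ∃ b ∈ Cs, p.2.1 ∈ b ∧ p.2.2 ∈ b)
    (T N : List St) (hT : T ∈ Cs) (hN : N ∈ Cs) (hTN : T ≠ N)
    (hid : ∀ s ∈ T, subComb D₀ e s = [(1, s)])
    (hsep : ∀ b ∈ Cs, b ≠ T → b ≠ N → ∀ s ∈ b, ∀ q ∈ subComb D₀ e s, q.2 ∉ T)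
    (x y : Fin T.length) :
    coeffAt (substLin D₀ e L) (T.get x) (T.get y) = coeffAt L (T.get x) (T.get y) +
      ∑ i : Fin N.length, ∑ j : Fin N.length, combAt (subComb D₀ e (N.get i)) (T.get x) *
        coeffAt L (N.get i) (N.get j) * combAt (subComb D₀ e (N.get j)) (T.get y) := by
  have hTn : T.Nodup := (List.nodup_flatten.1 hnd).1 T hT
  rw [coeffAt_substLin_classes D₀ e L Cs hnd hcov]
  obtain ⟨-, hdj⟩ := List.nodup_flatten.1 hnd
  have key : ∀ (C : List (List St)), C.Pairwise List.Disjoint →
      (∀ b ∈ C, b ≠ T → b ≠ N → ∀ s ∈ b, ∀ q ∈ subComb D₀ e s, q.2 ∉ T) →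
      (C.map fun b => ∑ i : Fin b.length, ∑ j : Fin b.length, coeffAt L (b.get i) (b.get j) *
        (combAt (subComb D₀ e (b.get i)) (T.get x) *
          combAt (subComb D₀ e (b.get j)) (T.get y))).sum =
      (if T ∈ C then coeffAt L (T.get x) (T.get y) else 0) +
      if N ∈ C then ∑ i : Fin N.length, ∑ j : Fin N.length,
        combAt (subComb D₀ e (N.get i)) (T.get x) * coeffAt L (N.get i) (N.get j) *
          combAt (subComb D₀ e (N.get j)) (T.get y) else 0 := by
    intro C hC hs
    induction C with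
    | nil => simp
    | cons b C ih =>
      obtain ⟨h1, h2⟩ := List.pairwise_cons.1 hC
      rw [List.map_cons, List.sum_cons, ih h2 fun b hb => hs b (List.mem_cons_of_mem _ hb)]
      have hnin : ∀ l : List St, l ≠ [] → b = l → l ∉ C := fun l hl he hm => by
        obtain ⟨a, ha⟩ := List.exists_mem_of_ne_nil l hl
        exact List.disjoint_left.1 (h1 l hm) (he ▸ ha) ha
      have hTne : T ≠ [] := fun h => by subst h; exact x.elim0
      by_cases hbT : b = T
      · subst hbT
        rw [class_fixed D₀ e L b hTn hid, if_pos (List.mem_cons_self ..),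
          if_neg (hnin b hTne rfl), zero_add]
        congr 1
        by_cases hm : N ∈ C
        · rw [if_pos hm, if_pos (List.mem_cons_of_mem _ hm)]
        · rw [if_neg hm, if_neg (by simp [hm, Ne.symm hTN])]
      · have hTmem : (T ∈ b :: C) ↔ T ∈ C := by simp [Ne.symm hbT]
        by_cases hbN : b = N
        · subst hbN
          simp only [hTmem, List.mem_cons_self, if_true]
          by_cases hm : b ∈ C
          · have hbe : b = [] := by_contra fun h => hnin b h rfl hm
            subst hbe
            simp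
          · rw [if_neg hm, add_zero, add_comm]
            congr 1
            exact Finset.sum_congr rfl fun i _ => Finset.sum_congr rfl fun j _ => by ring
        · have hNmem : (N ∈ b :: C) ↔ N ∈ C := by simp [Ne.symm hbN]
          simp only [hTmem, hNmem]
          rw [Finset.sum_eq_zero, zero_add]
          intro i _
          refine Finset.sum_eq_zero fun j _ => ?_
          rw [combAt_eq_zero _ (T.get x) fun q hq h => hs b (List.mem_cons_self ..) hbT hbN
            (b.get i) (List.get_mem b i) q hq (h ▸ List.get_mem T x)]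
          simp
  rw [key Cs hdj hsep, if_pos hT, if_pos hN]

/-- (3) The substituted keys stay inside the blocks. -/
theorem substLin_cover (D₀ : ℕ) (e : R) (L : Lin R) (Cs Bs : List (List St))
    (hcov : ∀ p ∈ L, ∃ b ∈ Cs, p.2.1 ∈ b ∧ p.2.2 ∈ b)
    (hsub : ∀ b ∈ Cs, ∃ T ∈ Bs, ∀ s ∈ b, ∀ q ∈ subComb D₀ e s, q.2 ∈ T) :
    ∀ p ∈ substLin D₀ e L, ∃ T ∈ Bs, p.2.1 ∈ T ∧ p.2.2 ∈ T := by
  intro p hp
  rw [substLin, List.mem_flatMap] at hp
  obtain ⟨q, hq, hpq⟩ := hp
  obtain ⟨b, hb, h1, h2⟩ := hcov q hq
  obtain ⟨T, hT, hTb⟩ := hsub b hb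
  refine ⟨T, hT, ?_⟩
  simp only [scale, cross, List.mem_map, List.mem_flatMap] at hpq
  obtain ⟨r, ⟨u, hu, v, hv, rfl⟩, rfl⟩ := hpq
  exact ⟨hTb _ h1 u hu, hTb _ h2 v hv⟩

section Tables

open CertCheck

/-- The table `R + Tᵀ W T`, with `W T` computed first. -/
def congrTable (n m : ℕ) (Rw W Tm : List (List ℚ)) : List (List ℚ) :=
  let WT := (List.range m).map fun k => (List.range n).map fun j =>
    ((List.range m).map fun l => rEnt W k l * rEnt Tm l j).sum
  (List.range n).map fun i => (List.range n).map fun j =>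
    rEnt Rw i j + ((List.range m).map fun k => rEnt Tm k i * rEnt WT k j).sum

theorem rEnt_table (n m : ℕ) (f : ℕ → ℕ → ℚ) {i j : ℕ} (hi : i < m) (hj : j < n) :
    rEnt ((List.range m).map fun i => (List.range n).map fun j => f i j) i j = f i j := by
  simp [rEnt, List.getD_eq_getElem?_getD, hi, hj]

theorem list_sum_range_map {M : Type*} [AddCommMonoid M] (f : ℕ → M) (m : ℕ) :
    ((List.range m).map f).sum = ∑ i : Fin m, f i := by
  induction m with
  | zero => simp
  | succ m ih =>
    rw [List.range_succ, List.map_append, List.sum_append, ih, Fin.sum_univ_castSucc]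
    simp

theorem rEnt_congrTable (n m : ℕ) (Rw W Tm : List (List ℚ)) (i j : Fin n) :
    rEnt (congrTable n m Rw W Tm) i j = rEnt Rw i j +
      ∑ k : Fin m, ∑ l : Fin m, rEnt Tm k i * rEnt W k l * rEnt Tm l j := by
  simp only [congrTable]
  rw [rEnt_table n n _ i.2 j.2, list_sum_range_map]
  congr 1
  refine Finset.sum_congr rfl fun k _ => ?_
  rw [rEnt_table n m _ k.2 j.2, list_sum_range_map, Finset.mul_sum]
  exact Finset.sum_congr rfl fun l _ => by ring

/-- (2) with tables. -/
theorem coeffAt_substLin_tables (D₀ : ℕ) (L : Lin ℚ) (Cs : List (List St))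
    (hnd : Cs.flatten.Nodup) (hcov : ∀ p ∈ L, ∃ b ∈ Cs, p.2.1 ∈ b ∧ p.2.2 ∈ b)
    (T N : List St) (hT : T ∈ Cs) (hN : N ∈ Cs) (hTN : T ≠ N)
    (hid : ∀ s ∈ T, subComb D₀ (0 : ℚ) s = [(1, s)])
    (hsep : ∀ b ∈ Cs, b ≠ T → b ≠ N → ∀ s ∈ b, ∀ q ∈ subComb D₀ (0 : ℚ) s, q.2 ∉ T)
    (Rw W Tm : List (List ℚ))
    (hR : ∀ x y : Fin T.length, coeffAt L (T.get x) (T.get y) = rEnt Rw x y)
    (hW : ∀ i j : Fin N.length, coeffAt L (N.get i) (N.get j) = rEnt W i j)
    (hTm : ∀ (i : Fin N.length) (x : Fin T.length),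
      combAt (subComb D₀ (0 : ℚ) (N.get i)) (T.get x) = rEnt Tm i x)
    (x y : Fin T.length) :
    coeffAt (substLin D₀ 0 L) (T.get x) (T.get y) =
      rEnt (congrTable T.length N.length Rw W Tm) x y := by
  rw [rEnt_congrTable, coeffAt_substLin_block D₀ 0 L Cs hnd hcov T N hT hN hTN hid hsep, hR]
  simp only [hW, hTm]

end Tables

end Vale.Agent.P359.Moment
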