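import Vale.Agent.P359.YSlack

/-!
An invariant positive functional on products of two ladder systems: the setting of the moment
certificate. The fields are exactly what an eigenspace of the pair Hamiltonian provides.
-/

open Finset RCLike
open scoped InnerProductSpace

namespace Vale.Agent.P359.Moment

variable {E : Type*} [NormedAddCommGroup E] [InnerProductSpace ℂ E]

/-- The real trace form of a finite family of vectors. -/
noncomputable abbrev pform {ι : Type*} [Fintype ι] (χ : ι → E) (X Y : Module.End ℂ E) : ℝ :=
  Slack.pform χ X Y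

/-- The scaled pair annihilator built from the scaled one-particle ladder. -/
noncomputable abbrev bh (eps : ℝ) (u : ℕ → Module.End ℂ E) (k : ℕ) : Module.End ℂ E :=
  Ladder.comp ℂ 1 1 eps 1 u u k

/-- The data given by one eigenspace: scaled ladder operators and an invariant family. -/
structure Sys (eps : ℝ) (E : Type*) [NormedAddCommGroup E] [InnerProductSpace ℂ E]
    (ι : Type*) [Fintype ι] where
  /-- The scaled annihilators. -/
  u : ℕ → Module.End ℂ E
  /-- Their adjoints. -/
  ud : ℕ → Module.End ℂ E
  /-- The scaled raising operator. -/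
  Ep : Module.End ℂ E
  /-- The scaled lowering operator. -/
  Fm : Module.End ℂ E
  /-- The family of vectors. -/
  χ : ι → E
  adj : ∀ a x y, ⟪ud a x, y⟫_ℂ = ⟪x, u a y⟫_ℂ
  anti : ∀ a b, u a * u b = -(u b * u a)
  mix : ∀ a b, u a * ud b + ud b * u a = if a = b then ((Coef.nrm 1 eps a : ℝ) : ℂ) • 1 else 0
  ladder : Ladder.IsLadder (Ladder.brk (𝕜 := ℂ) Ep) (Ladder.brk (𝕜 := ℂ) Fm) 1 eps u
  inv : Slack.PInvariant χ Ep Fm

/-- Names of the monomials that carry moments. -/
inductive St : Type
  /-- A pair. -/
  | bh (k : ℕ)
  /-- A pair and a particle. -/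
  | one (k a : ℕ)
  /-- A pair and two particles. -/
  | win (k a b : ℕ)
  /-- A product of particles. -/
  | word (l : List ℕ)
  deriving DecidableEq

/-- The weight of a monomial. -/
def St.wt : St → ℕ
  | .bh k => k
  | .one k a => k + a
  | .win k a b => k + a + b + 1
  | .word l => l.sum

variable {eps : ℝ} {ι : Type*} [Fintype ι] (S : Sys eps E ι)

/-- The operator of a monomial. -/
noncomputable def Sys.op : St → Module.End ℂ E
  | .bh k => Moment.bh eps S.u k
  | .one k a => S.u a * Moment.bh eps S.u k
  | .win k a b => S.u a * S.u b * Moment.bh eps S.u k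
  | .word l => (l.map S.u).prod

/-- The moment of two monomials. -/
noncomputable def Sys.val (p : St × St) : ℝ := pform S.χ (S.op p.1) (S.op p.2)

end Vale.Agent.P359.Moment
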